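import Vale.Agent.P141.PL.H620.Main

/-!
# P141: the single scale forms as averages, and their absolute integral over the scales
-/

namespace Vale.Agent.N141K

open MeasureTheory Set Filter Topology
open Vale.Agent.P141 Vale.Agent.P141.PL.H620

/-- a weighted mean of `w` between `0` and `y` -/
noncomputable def Mw (w : ℝ → ℝ) (y : ℝ) : ℝ := ∫ s in (0 : ℝ)..1, (1 - s) ^ 3 / 6 * w (y * s)

theorem Mw_cont {w : ℝ → ℝ} (hw : Continuous w) : Continuous (Mw w) := by
  unfold Mw
  refine intervalIntegral.continuous_parametric_intervalIntegral_of_continuous' ?_ 0 1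
  unfold Function.uncurry
  fun_prop

theorem Mw_neg (w : ℝ → ℝ) (y : ℝ) : Mw w (-y) = Mw (fun u => w (-u)) y := by
  unfold Mw
  simp only [neg_mul]

theorem V4_eq {w : ℝ → ℝ} (hw : Continuous w) (y : ℝ) : V4 w y = y ^ 4 * Mw w y := by
  have c1 := prim_cont hw
  have c2 := prim_cont c1
  have c3 := prim_cont c2
  have key : ∫ u in (0 : ℝ)..y, (y - u) ^ 3 / 6 * w u = V4 w y := by
    have h := intervalIntegral.integral_eq_sub_of_hasDerivAt (a := 0) (b := y)
      (f := fun u => (y - u) ^ 3 / 6 * prim w u + (y - u) ^ 2 / 2 * prim (prim w) u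
        + (y - u) * prim (prim (prim w)) u + V4 w u)
      (f' := fun u => (y - u) ^ 3 / 6 * w u) (fun u _ => by
        have l : HasDerivAt (fun u : ℝ => y - u) (-1) u := (hasDerivAt_id u).const_sub y
        have e0 := ((l.pow 3).div_const 6).mul (prim_hasDeriv hw u)
        have e1 := ((l.pow 2).div_const 2).mul (prim_hasDeriv c1 u)
        have e2 := l.mul (prim_hasDeriv c2 u)
        have e3 := prim_hasDeriv c3 u
        refine (((e0.add e1).add e2).add e3).congr_deriv ?_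
        simp only [Pi.pow_apply]
        norm_num
        ring)
      ((by fun_prop : Continuous fun u => (y - u) ^ 3 / 6 * w u).intervalIntegrable _ _)
    rw [h]
    simp [V4, prim_zero]
  rw [← key]
  have h2 := intervalIntegral.smul_integral_comp_mul_left (a := 0) (b := 1)
    (fun u => (y - u) ^ 3 / 6 * w u) y
  rw [mul_zero, mul_one, smul_eq_mul] at h2
  rw [← h2]
  unfold Mw
  rw [show y ^ 4 = y * y ^ 3 by ring, mul_assoc, ← intervalIntegral.integral_const_mul (y ^ 3)]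
  congr 1
  refine intervalIntegral.integral_congr fun s _ => ?_
  ring

/-- the single scale form -/
noncomputable def HH (w : ℝ → ℝ) (t : ℝ) : ℝ :=
  Mw w (-(1 * t)) - 1 / 2 * Mw w (-(1 / 2 * t)) - 7 / 2 * Mw w (1 / 2 * t) + 70 * Mw w (1 * t)
    - 567 / 2 * Mw w (3 / 2 * t) + 448 * Mw w (2 * t) - 625 / 2 * Mw w (5 / 2 * t)
    + 81 * Mw w (3 * t)

theorem HH_cont {w : ℝ → ℝ} (hw : Continuous w) : Continuous (HH w) := by
  have := Mw_cont hw
  unfold HH
  fun_prop

theorem Ac_one {w : ℝ → ℝ} (hw : Continuous w) {t : ℝ} (ht : t ≠ 0) :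
    Ac 1 (V4 w) t = HH w t := by
  unfold Ac HH
  simp only [V4_eq hw]
  rw [show t * (1 - 2 : ℝ) = -(1 * t) by ring, show t * (1 - 3 / 2 : ℝ) = -(1 / 2 * t) by ring,
    show t * (1 - 1 : ℝ) = 0 by ring, show t * (1 - 1 / 2 : ℝ) = 1 / 2 * t by ring,
    show t * (1 : ℝ) = 1 * t by ring, show t * (1 + 1 / 2 : ℝ) = 3 / 2 * t by ring,
    show t * (1 + 1 : ℝ) = 2 * t by ring, show t * (1 + 3 / 2 : ℝ) = 5 / 2 * t by ring,
    show t * (1 + 2 : ℝ) = 3 * t by ring]
  field_simp
  ring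

theorem Ac_neg {w : ℝ → ℝ} (hw : Continuous w) {t : ℝ} (ht : t ≠ 0) :
    Ac (-1) (V4 w) t = HH w (-t) := by
  unfold Ac HH
  simp only [V4_eq hw]
  rw [show t * (-1 - 2 : ℝ) = 3 * -t by ring, show t * (-1 - 3 / 2 : ℝ) = 5 / 2 * -t by ring,
    show t * (-1 - 1 : ℝ) = 2 * -t by ring, show t * (-1 - 1 / 2 : ℝ) = 3 / 2 * -t by ring,
    show t * (-1 : ℝ) = 1 * -t by ring, show t * (-1 + 1 / 2 : ℝ) = 1 / 2 * -t by ring,
    show t * (-1 + 1 : ℝ) = 0 by ring, show t * (-1 + 3 / 2 : ℝ) = -(1 / 2 * -t) by ring,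
    show t * (-1 + 2 : ℝ) = -(1 * -t) by ring]
  field_simp
  ring

/-- the dyadic decomposition, with absolute values -/
theorem absint {H : ℝ → ℝ} (hH : Continuous H) {n : ℕ} {K : ℝ}
    (hK : ∀ t : ℝ, 0 < t → ∑ k ∈ Finset.Icc 1 n, |H (2 ^ k * t)| ≤ K)
    {a b : ℝ} (ha : 0 < a) (hab : a ≤ b) (hb' : b ≤ 2 ^ n * a) :
    ∫ t in a..b, |H t| / t ≤ K := by
  have hb : 0 < b := ha.trans_le hab
  set g : ℝ → ℝ := fun t => |H t| / t with hg
  have gen : ∀ {F : ℝ → ℝ}, Continuous F → ∀ {a b : ℝ}, 0 < a → 0 < b →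
      IntervalIntegrable (fun t => F t / t) volume a b := by
    intro F hF a b ha hb
    simpa using ii_div hF 1 ha hb
  have hgi : ∀ {a b : ℝ}, 0 < a → 0 < b → IntervalIntegrable g volume a b :=
    fun ha hb => gen hH.abs ha hb
  have h2 : (∫ t in a..b, g t) ≤ ∫ t in a..(2 ^ n * a), g t := by
    rw [← intervalIntegral.integral_add_adjacent_intervals (hgi ha hb)
      (hgi hb (hb.trans_le hb'))]
    have : 0 ≤ ∫ t in b..(2 ^ n * a), g t :=
      intervalIntegral.integral_nonneg hb' fun t ht =>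
        div_nonneg (abs_nonneg _) (hb.le.trans ht.1)
    linarith
  have h3 : (∫ t in a..(2 ^ n * a), g t)
      = ∑ j ∈ Finset.range n, ∫ t in (2 ^ j * a)..(2 ^ (j + 1) * a), g t := by
    rw [intervalIntegral.sum_integral_adjacent_intervals (a := fun j => (2 : ℝ) ^ j * a)
      (fun k _ => hgi (by positivity) (by positivity))]
    norm_num
  have h4 : ∀ j : ℕ, (∫ t in (2 ^ j * a)..(2 ^ (j + 1) * a), g t)
      = ∫ t in (a / 2)..a, |H (2 ^ (j + 1) * t)| / t := by
    intro j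
    have h := intervalIntegral.smul_integral_comp_mul_left (a := a / 2) (b := a) g
      ((2 : ℝ) ^ (j + 1))
    rw [show (2 : ℝ) ^ (j + 1) * (a / 2) = 2 ^ j * a by ring] at h
    rw [← h, smul_eq_mul, ← intervalIntegral.integral_const_mul]
    refine intervalIntegral.integral_congr fun t ht => ?_
    rw [Set.uIcc_of_le (by linarith)] at ht
    have ht0 : 0 < t := lt_of_lt_of_le (by positivity) ht.1
    show 2 ^ (j + 1) * (|H (2 ^ (j + 1) * t)| / (2 ^ (j + 1) * t)) = |H (2 ^ (j + 1) * t)| / t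
    field_simp
  have i4 : ∀ j : ℕ, IntervalIntegrable (fun t => |H (2 ^ (j + 1) * t)| / t)
      volume (a / 2) a := fun j =>
    gen (F := fun t => |H (2 ^ (j + 1) * t)|) (by fun_prop) (by positivity) ha
  have hK0 : 0 ≤ K := le_trans (Finset.sum_nonneg fun _ _ => abs_nonneg _) (hK 1 one_pos)
  have hshift : ∀ F : ℕ → ℝ, ∑ j ∈ Finset.range n, F (j + 1) = ∑ k ∈ Finset.Icc 1 n, F k := by
    intro F
    rw [Finset.range_eq_Ico, Finset.sum_Ico_add' F 0 n 1]
    congr 1
  have h5 : (∑ j ∈ Finset.range n, ∫ t in (a / 2)..a, |H (2 ^ (j + 1) * t)| / t)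
      ≤ ∫ _ in (a / 2)..a, K / (a / 2) := by
    rw [← intervalIntegral.integral_finsetSum (fun j _ => i4 j)]
    have isum : IntervalIntegrable (fun t => ∑ j ∈ Finset.range n,
        |H (2 ^ (j + 1) * t)| / t) volume (a / 2) a := by
      have := IntervalIntegrable.sum (Finset.range n) (fun j _ => i4 j)
      refine this.congr_ae (ae_of_all _ fun t => ?_)
      simp only [Finset.sum_apply]
    refine intervalIntegral.integral_mono_on (by linarith) isum intervalIntegrable_const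
      fun t ht => ?_
    have ht0 : 0 < t := lt_of_lt_of_le (by positivity) ht.1
    rw [← Finset.sum_div, hshift fun k => |H (2 ^ k * t)|]
    exact div_le_div₀ hK0 (hK t ht0) (by positivity) ht.1
  have h6 : (∫ _ in (a / 2)..a, K / (a / 2)) = K := by
    rw [intervalIntegral.integral_const, smul_eq_mul]
    field_simp
    ring
  calc (∫ t in a..b, g t) ≤ ∫ t in a..(2 ^ n * a), g t := h2
    _ = ∑ j ∈ Finset.range n, ∫ t in (a / 2)..a, |H (2 ^ (j + 1) * t)| / t := by
        rw [h3]; exact Finset.sum_congr rfl fun j _ => h4 j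
    _ ≤ K := h6 ▸ h5

/-- the bound of the absolute integrals over all scales -/
def Abs (w : ℝ → ℝ) (K : ℝ) : Prop :=
  ∀ a b : ℝ, 0 < a → a ≤ b →
    (∫ t in a..b, |HH w t| / t) ≤ K ∧ (∫ t in a..b, |HH w (-t)| / t) ≤ K

/-- the product of the norms -/
noncomputable def PP (d : Fin 4 → ℝ) (f : Fin 4 → ℝ → ℝ) : ℝ :=
  ∏ j, (∫ x, |f j x| ^ (1 / d j)) ^ d j

theorem PP_nonneg (d : Fin 4 → ℝ) (f : Fin 4 → ℝ → ℝ) : 0 ≤ PP d f :=
  Finset.prod_nonneg fun _ _ => Real.rpow_nonneg
    (integral_nonneg fun _ => Real.rpow_nonneg (abs_nonneg _) _) _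

theorem abs_of_node {B : ℝ} {d : Fin 4 → ℝ} (hT : ∀ n, Node n B d) (hB : 0 ≤ B)
    (hd : ∀ i, 0 < d i) (hs : ∑ i, d i = 1) {f : Fin 4 → ℝ → ℝ} (hf : ∀ j, RB (f j)) :
    Abs (ww f) (B * PP d f) := by
  intro a b ha hab
  have hw := ww_cont hf
  obtain ⟨n, hn⟩ := pow_unbounded_of_one_lt (b / a) (show (1 : ℝ) < 2 by norm_num)
  rw [div_lt_iff₀ ha] at hn
  refine ⟨absint (HH_cont hw) (n := n) (fun t ht => ?_) ha hab hn.le,
    absint (H := fun t => HH (ww f) (-t)) ((HH_cont hw).comp continuous_neg) (n := n)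
      (fun t ht => ?_) ha hab hn.le⟩
  · have := single (hT n) hB hd hs hf (o := 1) (Or.inl rfl) ht
    simp only [Int.cast_one] at this
    refine le_trans (le_of_eq (Finset.sum_congr rfl fun k _ => ?_)) this
    rw [Ac_one hw (by positivity)]
  · have := single (hT n) hB hd hs hf (o := -1) (Or.inr rfl) ht
    simp only [Int.cast_neg, Int.cast_one] at this
    refine le_trans (le_of_eq (Finset.sum_congr rfl fun k _ => ?_)) this
    rw [Ac_neg hw (by positivity)]

end Vale.Agent.N141K
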