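import Vale.Agent.P141.Defs

/-!
# P141: trilinear operators with slopes `1, 2, 3` and other kernels
-/

open MeasureTheory
open scoped ENNReal SchwartzMap

namespace Vale.Agent.N141K

/-- The trilinear operator with slopes `1, 2, 3` and kernel `K`. -/
noncomputable def TK (K : ℝ → ℂ) (f₁ f₂ f₃ : ℝ → ℂ) (x : ℝ) : ℂ :=
  ∫ t, f₁ (x - t) * f₂ (x - 2 * t) * f₃ (x - 3 * t) * K t

/-- The homogeneous kernel of degree `-1 + iγ` with value `α` at `1` and `β` at `-1`, cut off to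
`ε < |t| < R`. -/
noncomputable def homK (γ : ℝ) (α β : ℂ) (ε R t : ℝ) : ℂ :=
  if ε < |t| ∧ |t| < R then
    (if 0 < t then α else β) * ((|t| : ℝ) : ℂ) ^ ((γ : ℂ) * Complex.I - 1) else 0

/-- The operators with the kernels `homK γ α β ε R` are bounded with one constant. -/
def HomBounded (γ : ℝ) (α β : ℂ) (p₁ p₂ p₃ r : ℝ≥0∞) : Prop :=
  ∃ C : ℝ≥0∞, C < ∞ ∧ ∀ (f₁ f₂ f₃ : 𝓢(ℝ, ℂ)) (ε R : ℝ), 0 < ε → ε < R →
    eLpNorm (TK (homK γ α β ε R) f₁ f₂ f₃) r volume ≤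
      C * eLpNorm f₁ p₁ volume * eLpNorm f₂ p₂ volume * eLpNorm f₃ p₃ volume

/-- The dilate `k (t / a) / a` of a kernel. -/
noncomputable def dil (k : ℝ → ℝ) (a t : ℝ) : ℂ := ((k (t / a) / a : ℝ) : ℂ)

/-- The increment of the operators with kernels `dil k a` between the scales `a j`, `a (j + 1)`. -/
noncomputable def incr (k : ℝ → ℝ) (a : ℕ → ℝ) (f₁ f₂ f₃ : ℝ → ℂ) (j : ℕ) (x : ℝ) : ℂ :=
  TK (dil k (a j)) f₁ f₂ f₃ x - TK (dil k (a (j + 1))) f₁ f₂ f₃ x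

/-- With one constant, for all Schwartz inputs and all increasing sequences of scales: the
increments are unconditionally summable in `L^r`, their square function is in `L^r`, and the
squares of their `L^r` norms are summable. -/
def Uncond (k : ℝ → ℝ) (p₁ p₂ p₃ r : ℝ≥0∞) : Prop :=
  ∃ C : ℝ≥0∞, C < ∞ ∧ ∀ (f₁ f₂ f₃ : 𝓢(ℝ, ℂ)) (a : ℕ → ℝ), 0 < a 0 → Monotone a → ∀ N : ℕ,
    (∀ c : ℕ → ℂ, (∀ j, ‖c j‖ ≤ 1) →
      eLpNorm (fun x => ∑ j ∈ Finset.range N, c j * incr k a f₁ f₂ f₃ j x) r volume ≤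
        C * eLpNorm f₁ p₁ volume * eLpNorm f₂ p₂ volume * eLpNorm f₃ p₃ volume) ∧
    eLpNorm (fun x => √(∑ j ∈ Finset.range N, ‖incr k a f₁ f₂ f₃ j x‖ ^ 2)) r volume ≤
      C * eLpNorm f₁ p₁ volume * eLpNorm f₂ p₂ volume * eLpNorm f₃ p₃ volume ∧
    ∑ j ∈ Finset.range N, eLpNorm (incr k a f₁ f₂ f₃ j) r volume ^ 2 ≤
      (C * eLpNorm f₁ p₁ volume * eLpNorm f₂ p₂ volume * eLpNorm f₃ p₃ volume) ^ 2

end Vale.Agent.N141K
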