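import Vale.Agent.N141K.A
import Vale.Agent.N141K.Defs

/-!
# P141: from a bound of the form with an integrable kernel to a bound of the operator
-/

namespace Vale.Agent.N141K

open MeasureTheory Set Filter Topology
open scoped ENNReal
open Vale.Agent.P141 Vale.Agent.P141.PL.H620 Vale.Agent.P141.H97

/-- the bound of the form for real functions -/
def Good (d : Fin 4 → ℝ) (A : ℝ) (K : ℝ → ℂ) : Prop :=
  ∀ f : Fin 4 → ℝ → ℝ, (∀ j, RB (f j)) → ‖∫ u, (ww f u : ℂ) * K u‖ ≤ A * PP d f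

/-- the integrand of the form -/
noncomputable def qk (K : ℝ → ℂ) (f : Fin 4 → ℝ → ℂ) (p : ℝ × ℝ) : ℂ :=
  (∏ j : Fin 4, f j (p.1 - (j : ℕ) * p.2)) * K p.2

/-- the form -/
noncomputable def QK (K : ℝ → ℂ) (f : Fin 4 → ℝ → ℂ) : ℂ := ∫ p, qk K f p

section

variable {K : ℝ → ℂ}

theorem qk_eq (f : Fin 4 → ℝ → ℂ) (p : ℝ × ℝ) : qk K f p
    = f 0 p.1 * (f 1 (p.1 - p.2) * f 2 (p.1 - 2 * p.2) * f 3 (p.1 - 3 * p.2) * K p.2) := by
  unfold qk
  rw [Fin.prod_univ_four]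
  have e0 : p.1 - (((0 : Fin 4) : ℕ) : ℝ) * p.2 = p.1 := by simp
  have e1 : p.1 - (((1 : Fin 4) : ℕ) : ℝ) * p.2 = p.1 - p.2 := by simp
  have e2 : p.1 - (((2 : Fin 4) : ℕ) : ℝ) * p.2 = p.1 - 2 * p.2 := by simp
  have e3 : p.1 - (((3 : Fin 4) : ℕ) : ℝ) * p.2 = p.1 - 3 * p.2 := by
    rw [show ((3 : Fin 4) : ℕ) = 3 from rfl]; simp
  rw [e0, e1, e2, e3]
  ring

theorem ph_meas (hK : Measurable K) {f₁ f₂ f₃ : ℝ → ℂ} (h₁ : Measurable f₁) (h₂ : Measurable f₂)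
    (h₃ : Measurable f₃) : Measurable fun p : ℝ × ℝ =>
      f₁ (p.1 - p.2) * f₂ (p.1 - 2 * p.2) * f₃ (p.1 - 3 * p.2) * K p.2 := by
  fun_prop

theorem ph_le {f₁ f₂ f₃ : ℝ → ℂ} {B₁ B₂ B₃ : ℝ} (h₁ : ∀ x, ‖f₁ x‖ ≤ B₁) (h₂ : ∀ x, ‖f₂ x‖ ≤ B₂)
    (h₃ : ∀ x, ‖f₃ x‖ ≤ B₃) (x t : ℝ) :
    ‖f₁ (x - t) * f₂ (x - 2 * t) * f₃ (x - 3 * t) * K t‖ ≤ B₁ * B₂ * B₃ * ‖K t‖ := by
  have hB₁0 : 0 ≤ B₁ := (norm_nonneg _).trans (h₁ 0)
  have hB₂0 : 0 ≤ B₂ := (norm_nonneg _).trans (h₂ 0)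
  have hB₃0 : 0 ≤ B₃ := (norm_nonneg _).trans (h₃ 0)
  rw [norm_mul, norm_mul, norm_mul]
  have c1 := h₁ (x - t)
  have c2 := h₂ (x - 2 * t)
  have c3 := h₃ (x - 3 * t)
  gcongr

theorem qk_int (hK : Measurable K) (hI : Integrable K) {f : Fin 4 → ℝ → ℂ}
    (hf : ∀ j, Nice (f j)) : Integrable (qk K f) := by
  obtain ⟨B₁, hB₁⟩ := (hf 1).bdd
  obtain ⟨B₂, hB₂⟩ := (hf 2).bdd
  obtain ⟨B₃, hB₃⟩ := (hf 3).bdd
  have h : Integrable (fun p : ℝ × ℝ => ‖f 0 p.1‖ * (B₁ * B₂ * B₃ * ‖K p.2‖)) := by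
    rw [Measure.volume_eq_prod]
    exact (hf 0).int.norm.mul_prod (hI.norm.const_mul _)
  have e : qk K f = fun p => f 0 p.1 *
      (f 1 (p.1 - p.2) * f 2 (p.1 - 2 * p.2) * f 3 (p.1 - 3 * p.2) * K p.2) :=
    funext fun p => qk_eq f p
  rw [e]
  refine h.mono' ((((hf 0).meas.comp measurable_fst).mul
    (ph_meas hK (hf 1).meas (hf 2).meas (hf 3).meas)).aestronglyMeasurable)
    (ae_of_all _ fun p => ?_)
  rw [norm_mul]
  exact mul_le_mul_of_nonneg_left (ph_le hB₁ hB₂ hB₃ _ _) (norm_nonneg _)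

theorem QK_pair (hK : Measurable K) (hI : Integrable K) {f : Fin 4 → ℝ → ℂ}
    (hf : ∀ j, Nice (f j)) : QK K f = ∫ x, f 0 x * TK K (f 1) (f 2) (f 3) x := by
  have h := qk_int hK hI hf
  unfold QK
  rw [Measure.volume_eq_prod] at h ⊢
  rw [integral_prod _ h]
  congr 1
  funext x
  unfold TK
  rw [← integral_const_mul]
  congr 1
  funext t
  rw [qk_eq]

theorem QK_real (hK : Measurable K) (hI : Integrable K) {f : Fin 4 → ℝ → ℝ}
    (hf : ∀ j, RB (f j)) : QK K (fun j x => (f j x : ℂ)) = ∫ u, (ww f u : ℂ) * K u := by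
  have h := qk_int hK hI (f := fun j x => (f j x : ℂ)) fun j => (hf j).cb.nice
  unfold QK
  rw [Measure.volume_eq_prod] at h ⊢
  rw [integral_prod_symm _ h]
  congr 1
  funext t
  have e0 : ∀ x : ℝ, qk K (fun j x => (f j x : ℂ)) (x, t)
      = ((∏ j : Fin 4, f j (x - (j : ℕ) * t) : ℝ) : ℂ) * K t := by
    intro x
    unfold qk
    push_cast
    rfl
  simp only [e0]
  rw [integral_mul_const, integral_complex_ofReal]
  rfl

theorem QK_add (hK : Measurable K) (hI : Integrable K) {f : Fin 4 → ℝ → ℂ} (hf : ∀ i, Nice (f i))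
    (i : Fin 4) {u v : ℝ → ℂ} (hu : Nice u) (hv : Nice v) (c : ℂ)
    (h : ∀ x, f i x = u x + c * v x) :
    QK K f = QK K (Function.update f i u) + c * QK K (Function.update f i v) := by
  have hU : ∀ j, Nice (Function.update f i u j) := by
    intro j
    by_cases hj : j = i
    · subst hj; rw [Function.update_self]; exact hu
    · rw [Function.update_of_ne hj]; exact hf j
  have hV : ∀ j, Nice (Function.update f i v j) := by
    intro j
    by_cases hj : j = i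
    · subst hj; rw [Function.update_self]; exact hv
    · rw [Function.update_of_ne hj]; exact hf j
  unfold QK
  rw [← integral_const_mul, ← integral_add (qk_int hK hI hU) ((qk_int hK hI hV).const_mul c)]
  congr 1
  funext p
  unfold qk
  have e : ∀ g : ℝ → ℂ, ∏ j : Fin 4, Function.update f i g j (p.1 - (j : ℕ) * p.2)
      = g (p.1 - (i : ℕ) * p.2) * ∏ j ∈ Finset.univ.erase i, f j (p.1 - (j : ℕ) * p.2) := by
    intro g
    rw [← Finset.mul_prod_erase Finset.univ _ (Finset.mem_univ i), Function.update_self]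
    congr 1
    refine Finset.prod_congr rfl fun j hj => ?_
    rw [Function.update_of_ne (Finset.ne_of_mem_erase hj)]
  rw [e u, e v, ← Finset.mul_prod_erase Finset.univ
    (fun j : Fin 4 => f j (p.1 - (j : ℕ) * p.2)) (Finset.mem_univ i), h]
  ring

/-- from real to complex functions -/
theorem QK_cplx (hK : Measurable K) (hI : Integrable K) {A : ℝ} (hA : 0 ≤ A) {d : Fin 4 → ℝ}
    (hd : ∀ i, 0 < d i) (H : Good d A K)
    (T : Finset (Fin 4)) : ∀ f : Fin 4 → ℝ → ℂ, (∀ j, CB (f j)) →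
      (∀ i ∉ T, ∀ x, f i x = ((f i x).re : ℂ)) →
      ‖QK K f‖ ≤ 2 ^ T.card * A * ∏ i, (NN (f i) (1 / d i)) ^ (d i) := by
  induction T using Finset.induction_on with
  | empty =>
    intro f hf hre
    have e : f = fun j x => (((f j x).re : ℝ) : ℂ) := by
      funext j x
      exact hre j (Finset.notMem_empty j) x
    have h := H (fun j x => (f j x).re) fun j => (hf j).re
    rw [← QK_real hK hI fun j => (hf j).re] at h
    rw [Finset.card_empty, pow_zero, one_mul, e]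
    refine h.trans (le_of_eq ?_)
    congr 1
    refine Finset.prod_congr rfl fun i _ => ?_
    unfold NN
    congr 2
    funext x
    rw [Complex.norm_real, Real.norm_eq_abs]
  | insert i T hi ih =>
    intro f hf hre
    set u : ℝ → ℂ := fun x => ((f i x).re : ℂ) with hu
    set v : ℝ → ℂ := fun x => ((f i x).im : ℂ) with hv
    have hu' : CB u := (hf i).re.cb
    have hv' : CB v := (hf i).im.cb
    have hsplit : ∀ x, f i x = u x + Complex.I * v x := by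
      intro x
      rw [hu, hv]
      simp only
      rw [mul_comm]
      exact (Complex.re_add_im (f i x)).symm
    rw [QK_add hK hI (fun j => (hf j).nice) i hu'.nice hv'.nice Complex.I hsplit]
    have hupd : ∀ g : ℝ → ℂ, CB g → (∀ x, g x = ((g x).re : ℂ)) → (∀ x, ‖g x‖ ≤ ‖f i x‖) →
        ‖QK K (Function.update f i g)‖
          ≤ 2 ^ T.card * A * ∏ j, (NN (f j) (1 / d j)) ^ (d j) := by
      intro g hg hgre hgle
      have hcb : ∀ j, CB (Function.update f i g j) := by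
        intro j
        by_cases hj : j = i
        · subst hj; rw [Function.update_self]; exact hg
        · rw [Function.update_of_ne hj]; exact hf j
      refine (ih _ hcb ?_).trans ?_
      · intro j hj x
        by_cases hji : j = i
        · subst hji; rw [Function.update_self]; exact hgre x
        · rw [Function.update_of_ne hji]
          exact hre j (by rw [Finset.mem_insert]; push Not; exact ⟨hji, hj⟩) x
      · refine mul_le_mul_of_nonneg_left ?_ (by positivity)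
        refine Finset.prod_le_prod (fun j _ => Real.rpow_nonneg (NN_nonneg _ _) _) fun j _ => ?_
        refine Real.rpow_le_rpow (NN_nonneg _ _) ?_ (hd j).le
        by_cases hj : j = i
        · subst hj
          rw [Function.update_self]
          exact NN_le_of_norm_le (hf j) hg hgle (one_div_pos.2 (hd j))
        · rw [Function.update_of_ne hj]
    have h1 := hupd u hu' (fun x => by simp [hu]) fun x => by
      rw [hu]; simp only [Complex.norm_real]; exact Complex.abs_re_le_norm _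
    have h2 := hupd v hv' (fun x => by simp [hv]) fun x => by
      rw [hv]; simp only [Complex.norm_real]; exact Complex.abs_im_le_norm _
    rw [Finset.card_insert_of_notMem hi, pow_succ]
    calc ‖QK K (Function.update f i u) + Complex.I * QK K (Function.update f i v)‖
        ≤ ‖QK K (Function.update f i u)‖ + ‖Complex.I * QK K (Function.update f i v)‖ :=
          norm_add_le _ _
      _ = ‖QK K (Function.update f i u)‖ + ‖QK K (Function.update f i v)‖ := by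
          rw [norm_mul, Complex.norm_I, one_mul]
      _ ≤ 2 ^ T.card * A * ∏ j, (NN (f j) (1 / d j)) ^ (d j)
          + 2 ^ T.card * A * ∏ j, (NN (f j) (1 / d j)) ^ (d j) := add_le_add h1 h2
      _ = _ := by ring

theorem TK_meas (hK : Measurable K) {f₁ f₂ f₃ : ℝ → ℂ} (h₁ : Measurable f₁) (h₂ : Measurable f₂)
    (h₃ : Measurable f₃) : Measurable (TK K f₁ f₂ f₃) :=
  ((ph_meas hK h₁ h₂ h₃).stronglyMeasurable.integral_prod_right' (ν := volume)).measurable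

theorem TK_bdd (hI : Integrable K) {f₁ f₂ f₃ : ℝ → ℂ} (h₁ : Nice f₁) (h₂ : Nice f₂)
    (h₃ : Nice f₃) : ∃ B, ∀ x, ‖TK K f₁ f₂ f₃ x‖ ≤ B := by
  obtain ⟨B₁, hB₁⟩ := h₁.bdd
  obtain ⟨B₂, hB₂⟩ := h₂.bdd
  obtain ⟨B₃, hB₃⟩ := h₃.bdd
  exact ⟨∫ t, B₁ * B₂ * B₃ * ‖K t‖, fun x => norm_integral_le_of_norm_le (hI.norm.const_mul _)
    (ae_of_all _ fun t => ph_le hB₁ hB₂ hB₃ x t)⟩

theorem TK_cut (hK : Measurable K) (hI : Integrable K) {f₁ f₂ f₃ : ℝ → ℂ} (h₁ : Nice f₁)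
    (h₂ : Nice f₂) (h₃ : Nice f₃) (x : ℝ) :
    Tendsto (fun n => TK K (cut n f₁) (cut n f₂) (cut n f₃) x) atTop (𝓝 (TK K f₁ f₂ f₃ x)) := by
  obtain ⟨B₁, hB₁⟩ := h₁.bdd
  obtain ⟨B₂, hB₂⟩ := h₂.bdd
  obtain ⟨B₃, hB₃⟩ := h₃.bdd
  have hm : ∀ n, AEStronglyMeasurable (fun t => cut n f₁ (x - t) * cut n f₂ (x - 2 * t) *
      cut n f₃ (x - 3 * t) * K t) volume := fun n =>
    ((ph_meas hK (h₁.meas.indicator (cut_set n h₁.meas)) (h₂.meas.indicator (cut_set n h₂.meas))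
      (h₃.meas.indicator (cut_set n h₃.meas))).comp
      (measurable_const.prodMk measurable_id)).aestronglyMeasurable
  refine tendsto_integral_of_dominated_convergence
    (fun t => B₁ * B₂ * B₃ * ‖K t‖) hm (hI.norm.const_mul _)
    (fun n => ae_of_all _ fun t => ph_le (fun y => (cut_norm_le n f₁ y).trans (hB₁ y))
      (fun y => (cut_norm_le n f₂ y).trans (hB₂ y)) (fun y => (cut_norm_le n f₃ y).trans (hB₃ y))
      x t) (ae_of_all _ fun t => ?_)
  apply tendsto_const_nhds.congr'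
  filter_upwards [cut_tendsto f₁ (x - t), cut_tendsto f₂ (x - 2 * t),
    cut_tendsto f₃ (x - 3 * t)] with n e1 e2 e3
  rw [e1, e2, e3]

/-- from a bound of the form to a bound of the operator -/
theorem op (hK : Measurable K) (hI : Integrable K) {A : ℝ} (hA : 0 ≤ A) {p₁ p₂ p₃ r : ℝ≥0∞}
    (hd : ∀ i, 0 < dd p₁ p₂ p₃ r i) (hsum : r⁻¹ = p₁⁻¹ + p₂⁻¹ + p₃⁻¹)
    (HG : Good (dd p₁ p₂ p₃ r) A K)
    {f₁ f₂ f₃ : ℝ → ℂ} (k₁ : Nice f₁) (k₂ : Nice f₂) (k₃ : Nice f₃) :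
    eLpNorm (TK K f₁ f₂ f₃) r volume ≤ ENNReal.ofReal (16 * A) * eLpNorm f₁ p₁ volume *
      eLpNorm f₂ p₂ volume * eLpNorm f₃ p₃ volume := by
  have H : ∀ f : Fin 4 → ℝ → ℂ, (∀ i, Simp (f i)) → ‖QK K f‖ ≤
      16 * A * ∏ i, (NN (f i) (1 / dd p₁ p₂ p₃ r i)) ^ (dd p₁ p₂ p₃ r i) := by
    intro f hf
    have h := QK_cplx hK hI hA hd HG Finset.univ f (fun j => CB.of_simp (hf j))
      (fun i hi => absurd (Finset.mem_univ i) hi)
    rw [Finset.card_univ, Fintype.card_fin] at h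
    refine h.trans (le_of_eq ?_)
    norm_num
  have hA' : 0 ≤ 16 * A := by positivity
  generalize 16 * A = A at H hA' ⊢
  set d := dd p₁ p₂ p₃ r with hdd
  have e0 : d 0 = 1 - (r⁻¹).toReal := rfl
  have e1 : d 1 = (p₁⁻¹).toReal := rfl
  have e2 : d 2 = (p₂⁻¹).toReal := rfl
  have e3 : d 3 = (p₃⁻¹).toReal := rfl
  have h0 := hd 0
  have h1 := hd 1
  have h2 := hd 2
  have h3 := hd 3
  obtain ⟨z1, t1⟩ := ne_of_inv (e1 ▸ h1)
  obtain ⟨z2, t2⟩ := ne_of_inv (e2 ▸ h2)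
  obtain ⟨z3, t3⟩ := ne_of_inv (e3 ▸ h3)
  have i1 : p₁⁻¹ ≠ ∞ := ENNReal.inv_ne_top.2 z1
  have i2 : p₂⁻¹ ≠ ∞ := ENNReal.inv_ne_top.2 z2
  have i3 : p₃⁻¹ ≠ ∞ := ENNReal.inv_ne_top.2 z3
  have hs : (r⁻¹).toReal = (p₁⁻¹).toReal + (p₂⁻¹).toReal + (p₃⁻¹).toReal := by
    rw [hsum, ENNReal.toReal_add (ENNReal.add_ne_top.2 ⟨i1, i2⟩) i3, ENNReal.toReal_add i1 i2]
  obtain ⟨zr, tr⟩ := ne_of_inv (p := r) (by rw [hs]; linarith)
  have one_le : ∀ {p : ℝ≥0∞}, p ≠ ∞ → 0 < (p⁻¹).toReal → (p⁻¹).toReal ≤ 1 → 1 ≤ p := by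
    intro p hp h6 hle
    rw [ENNReal.toReal_inv] at h6 hle
    have hpos : 0 < p.toReal := inv_pos.1 h6
    have h12 : 1 ≤ p.toReal := by
      have := inv_anti₀ h6 hle
      simpa using this
    rw [← ENNReal.ofReal_toReal hp, ← ENNReal.ofReal_one]
    exact ENNReal.ofReal_le_ofReal h12
  have o1 : 1 ≤ p₁ := one_le t1 (by linarith) (by linarith)
  have o2 : 1 ≤ p₂ := one_le t2 (by linarith) (by linarith)
  have o3 : 1 ≤ p₃ := one_le t3 (by linarith) (by linarith)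
  have hrr : ENNReal.ofReal (1 / (1 - d 0)) = r := by
    rw [e0, sub_sub_cancel, ENNReal.toReal_inv, one_div, inv_inv, ENNReal.ofReal_toReal tr]
  have hsimp : ∀ g₁ g₂ g₃ : ℝ → ℂ, Simp g₁ → Simp g₂ → Simp g₃ →
      eLpNorm (TK K g₁ g₂ g₃) (ENNReal.ofReal (1 / (1 - d 0))) volume ≤
        ENNReal.ofReal (A * ((NN g₁ (1 / d 1)) ^ (d 1) *
          (NN g₂ (1 / d 2)) ^ (d 2) * (NN g₃ (1 / d 3)) ^ (d 3))) := by
    intro g₁ g₂ g₃ s₁ s₂ s₃
    obtain ⟨B, hB⟩ := TK_bdd hI s₁.nice s₂.nice s₃.nice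
    have n1 := NN_nonneg g₁ (1 / d 1)
    have n2 := NN_nonneg g₂ (1 / d 2)
    have n3 := NN_nonneg g₃ (1 / d 3)
    refine dual h0 (by linarith) (TK_meas hK s₁.meas s₂.meas s₃.meas) hB
      (by positivity) fun f₀ s₀ => ?_
    have hall : ∀ i, Simp (![f₀, g₁, g₂, g₃] i) := fun i => by
      fin_cases i
      · exact s₀
      · exact s₁
      · exact s₂
      · exact s₃
    have h := H ![f₀, g₁, g₂, g₃] hall
    rw [QK_pair hK hI fun i => (hall i).nice, Fin.prod_univ_four] at h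
    refine h.trans (le_of_eq ?_)
    show A * ((NN f₀ (1 / d 0)) ^ (d 0) *
      (NN g₁ (1 / d 1)) ^ (d 1) * (NN g₂ (1 / d 2)) ^ (d 2) * (NN g₃ (1 / d 3)) ^ (d 3)) = _
    ring
  have hlim : ∀ᵐ x : ℝ, Tendsto
      (fun n => TK K (cut n f₁) (cut n f₂) (cut n f₃) x) atTop
      (𝓝 (TK K f₁ f₂ f₃ x)) := ae_of_all _ fun x => TK_cut hK hI k₁ k₂ k₃ x
  obtain ⟨B₁, hB₁⟩ := k₁.bdd
  obtain ⟨B₂, hB₂⟩ := k₂.bdd
  obtain ⟨B₃, hB₃⟩ := k₃.bdd
  have c1 := fun n => cut_simp n k₁.meas hB₁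
  have c2 := fun n => cut_simp n k₂.meas hB₂
  have c3 := fun n => cut_simp n k₃.meas hB₃
  refine (Lp.eLpNorm_lim_le_liminf_eLpNorm (fun n => (TK_meas hK (c1 n).meas (c2 n).meas
    (c3 n).meas).aestronglyMeasurable) _ hlim).trans ?_
  refine liminf_le_of_le (by isBoundedDefault) fun b hb => ?_
  obtain ⟨n, hn⟩ := hb.exists
  refine hn.trans ?_
  have h := hsimp _ _ _ (c1 n) (c2 n) (c3 n)
  rw [hrr] at h
  refine h.trans ?_
  have conv : ∀ {p : ℝ≥0∞} {f : ℝ → ℂ}, 1 ≤ p → p ≠ ∞ → Nice (cut n f) →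
      ENNReal.ofReal ((NN (cut n f) (1 / (p⁻¹).toReal)) ^ (p⁻¹).toReal) ≤
        eLpNorm f p volume := by
    intro p f hp1 hpt hf
    rw [ENNReal.toReal_inv, one_div, inv_inv, ← elp_NN (hf.memLp hp1 hpt) hp1 hpt]
    exact eLpNorm_mono fun x => cut_norm_le n f x
  have v1 := conv o1 t1 (c1 n).nice
  have v2 := conv o2 t2 (c2 n).nice
  have v3 := conv o3 t3 (c3 n).nice
  rw [← e1] at v1
  rw [← e2] at v2
  rw [← e3] at v3
  have x1 : 0 ≤ (NN (cut n f₁) (1 / d 1)) ^ (d 1) := Real.rpow_nonneg (NN_nonneg _ _) _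
  have x2 : 0 ≤ (NN (cut n f₂) (1 / d 2)) ^ (d 2) := Real.rpow_nonneg (NN_nonneg _ _) _
  calc ENNReal.ofReal (A * ((NN (cut n f₁) (1 / d 1)) ^ (d 1) *
          (NN (cut n f₂) (1 / d 2)) ^ (d 2) * (NN (cut n f₃) (1 / d 3)) ^ (d 3)))
      = ENNReal.ofReal A * (ENNReal.ofReal
          ((NN (cut n f₁) (1 / d 1)) ^ (d 1)) * ENNReal.ofReal ((NN (cut n f₂) (1 / d 2)) ^ (d 2)) *
          ENNReal.ofReal ((NN (cut n f₃) (1 / d 3)) ^ (d 3))) := by
        rw [ENNReal.ofReal_mul hA', ENNReal.ofReal_mul (mul_nonneg x1 x2), ENNReal.ofReal_mul x1]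
    _ ≤ ENNReal.ofReal A * (eLpNorm f₁ p₁ volume *
          eLpNorm f₂ p₂ volume * eLpNorm f₃ p₃ volume) := by gcongr
    _ = _ := by ring

end

end Vale.Agent.N141K
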