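import Vale.Agent.N141K.B

/-!
# P141: homogeneous kernels of degree `-1 + iγ`
-/

namespace Vale.Agent.N141K

open MeasureTheory Set Filter Topology
open Vale.Agent.P141 Vale.Agent.P141.PL.H620

/-- `t ^ (iγ - 1)` -/
noncomputable def cp (γ t : ℝ) : ℂ := (t : ℂ) ^ ((γ : ℂ) * Complex.I - 1)

/-- `t ^ (-iγ)` -/
noncomputable def ci (γ t : ℝ) : ℂ := (t : ℂ) ^ (-((γ : ℂ) * Complex.I))

theorem cp_norm (γ : ℝ) {t : ℝ} (ht : 0 < t) : ‖cp γ t‖ = t⁻¹ := by
  unfold cp
  rw [Complex.norm_cpow_eq_rpow_re_of_pos ht]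
  simp [Real.rpow_neg_one]

theorem ci_norm (γ : ℝ) {t : ℝ} (ht : 0 < t) : ‖ci γ t‖ = 1 := by
  unfold ci
  rw [Complex.norm_cpow_eq_rpow_re_of_pos ht]
  simp

theorem cp_at (γ : ℝ) {t : ℝ} (ht : 0 < t) : ContinuousAt (cp γ) t :=
  Complex.continuousAt_ofReal_cpow_const t _ (Or.inr ht.ne')

theorem cp_max (γ : ℝ) {ε : ℝ} (hε : 0 < ε) : Continuous fun t => cp γ (max t ε) :=
  continuous_iff_continuousAt.2 fun t =>
    ContinuousAt.comp (f := fun t : ℝ => max t ε) (cp_at γ (lt_max_of_lt_right hε))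
      (by fun_prop)

theorem cp_meas (γ : ℝ) : Measurable (cp γ) := by
  unfold cp
  exact Complex.measurable_ofReal.pow_const _

theorem ci_mul (γ : ℝ) {a s : ℝ} (ha : 0 ≤ a) (hs : 0 ≤ s) : ci γ (a * s) = ci γ a * ci γ s := by
  unfold ci
  rw [Complex.ofReal_mul, Complex.mul_cpow_ofReal_nonneg ha hs]

theorem cp_mul (γ : ℝ) {c t : ℝ} (hc : 0 < c) (ht : 0 < t) :
    cp γ t = ci γ c * c * cp γ (c * t) := by
  unfold cp ci
  have hc' : (c : ℂ) ≠ 0 := Complex.ofReal_ne_zero.2 hc.ne'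
  rw [Complex.ofReal_mul, Complex.mul_cpow_ofReal_nonneg hc.le ht.le, Complex.cpow_sub _ _ hc',
    Complex.cpow_neg, Complex.cpow_one]
  have h : (c : ℂ) ^ ((γ : ℂ) * Complex.I) ≠ 0 := by
    rw [Ne, Complex.cpow_eq_zero_iff]
    exact fun h => hc' h.1
  field_simp

/-- the truncated Mellin integral -/
noncomputable def JJ (γ a b : ℝ) (F : ℝ → ℝ) : ℂ := ∫ t in a..b, cp γ t * (F t : ℂ)

theorem pos_of_uIcc {a b t : ℝ} (ha : 0 < a) (hb : 0 < b) (ht : t ∈ uIcc a b) : 0 < t := by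
  rcases mem_uIcc.1 ht with h | h
  · exact ha.trans_le h.1
  · exact hb.trans_le h.1

theorem JJ_ii (γ : ℝ) {a b : ℝ} (ha : 0 < a) (hb : 0 < b) {F : ℝ → ℝ} (hF : Continuous F) :
    IntervalIntegrable (fun t => cp γ t * (F t : ℂ)) volume a b := by
  refine ContinuousOn.intervalIntegrable fun t ht => ContinuousAt.continuousWithinAt ?_
  exact (cp_at γ (pos_of_uIcc ha hb ht)).mul (by fun_prop)

theorem JJ_add (γ : ℝ) {a b : ℝ} (ha : 0 < a) (hb : 0 < b) {F G : ℝ → ℝ} (hF : Continuous F)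
    (hG : Continuous G) : JJ γ a b (fun t => F t + G t) = JJ γ a b F + JJ γ a b G := by
  unfold JJ
  rw [← intervalIntegral.integral_add (JJ_ii γ ha hb hF) (JJ_ii γ ha hb hG)]
  congr 1
  funext t
  push_cast
  ring

theorem JJ_sub (γ : ℝ) {a b : ℝ} (ha : 0 < a) (hb : 0 < b) {F G : ℝ → ℝ} (hF : Continuous F)
    (hG : Continuous G) : JJ γ a b (fun t => F t - G t) = JJ γ a b F - JJ γ a b G := by
  unfold JJ
  rw [← intervalIntegral.integral_sub (JJ_ii γ ha hb hF) (JJ_ii γ ha hb hG)]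
  congr 1
  funext t
  push_cast
  ring

theorem JJ_smul (γ a b c : ℝ) (F : ℝ → ℝ) :
    JJ γ a b (fun t => c * F t) = c * JJ γ a b F := by
  unfold JJ
  rw [← intervalIntegral.integral_const_mul]
  congr 1
  funext t
  push_cast
  ring

theorem JJ_bd (γ : ℝ) {a b S : ℝ} (ha : 0 < a) (hb : 0 < b) {F : ℝ → ℝ} (hS : ∀ t, |F t| ≤ S) :
    ‖JJ γ a b F‖ ≤ S * |Real.log (b / a)| := by
  have hS0 : 0 ≤ S := (abs_nonneg _).trans (hS 0)
  have hi : IntervalIntegrable (fun t : ℝ => S * t⁻¹) volume a b := by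
    refine ContinuousOn.intervalIntegrable fun t ht => ContinuousAt.continuousWithinAt ?_
    have := (pos_of_uIcc ha hb ht).ne'
    fun_prop (disch := assumption)
  refine (intervalIntegral.norm_integral_le_abs_of_norm_le (g := fun t : ℝ => S * t⁻¹) ?_ hi).trans
    (le_of_eq ?_)
  · refine (ae_restrict_iff' measurableSet_uIoc).2 (ae_of_all _ fun t ht => ?_)
    have h0 := pos_of_uIcc ha hb (uIoc_subset_uIcc ht)
    rw [norm_mul, cp_norm γ h0, Complex.norm_real, Real.norm_eq_abs, mul_comm]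
    exact mul_le_mul_of_nonneg_right (hS t) (inv_nonneg.2 h0.le)
  · rw [intervalIntegral.integral_const_mul, integral_inv_of_pos ha hb, abs_mul, abs_of_nonneg hS0]

theorem JJ_abs (γ : ℝ) {a b : ℝ} (ha : 0 < a) (hab : a ≤ b) {F : ℝ → ℝ} (hF : Continuous F) :
    ‖JJ γ a b F‖ ≤ ∫ t in a..b, |F t| / t := by
  have hb := ha.trans_le hab
  refine intervalIntegral.norm_integral_le_of_norm_le hab (ae_of_all _ fun t ht => ?_) ?_
  · have h0 := ha.trans ht.1
    rw [norm_mul, cp_norm γ h0, Complex.norm_real, Real.norm_eq_abs, mul_comm, div_eq_mul_inv]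
  · refine ContinuousOn.intervalIntegrable fun t ht => ContinuousAt.continuousWithinAt ?_
    have := (pos_of_uIcc ha hb ht).ne'
    fun_prop (disch := assumption)

theorem JJ_shift (γ : ℝ) {a b S c : ℝ} (ha : 0 < a) (hb : 0 < b) (hc : 0 < c) {w : ℝ → ℝ}
    (hw : Continuous w) (hS : ∀ t, |w t| ≤ S) :
    ‖JJ γ a b (fun t => w (c * t)) - ci γ c * JJ γ a b w‖ ≤ 2 * S * |Real.log c| := by
  have hca := mul_pos hc ha
  have hcb := mul_pos hc hb
  have hc' : (c : ℂ) ≠ 0 := Complex.ofReal_ne_zero.2 hc.ne'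
  have e1 : JJ γ a b (fun t => w (c * t)) = ci γ c * JJ γ (c * a) (c * b) w := by
    unfold JJ
    have h := intervalIntegral.smul_integral_comp_mul_left (a := a) (b := b)
      (fun t => cp γ t * (w t : ℂ)) c
    rw [← h, Complex.real_smul, ← mul_assoc, ← intervalIntegral.integral_const_mul]
    refine intervalIntegral.integral_congr fun t ht => ?_
    show cp γ t * (w (c * t) : ℂ) = ci γ c * c * (cp γ (c * t) * (w (c * t) : ℂ))
    rw [cp_mul γ hc (pos_of_uIcc ha hb ht)]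
    ring
  have e2 : JJ γ (c * a) (c * b) w = JJ γ (c * a) a w + JJ γ a b w + JJ γ b (c * b) w := by
    unfold JJ
    rw [intervalIntegral.integral_add_adjacent_intervals (JJ_ii γ hca ha hw) (JJ_ii γ ha hb hw),
      intervalIntegral.integral_add_adjacent_intervals (JJ_ii γ hca hb hw) (JJ_ii γ hb hcb hw)]
  have b1 := JJ_bd γ hca ha hS
  have b2 := JJ_bd γ hb hcb hS
  rw [show a / (c * a) = c⁻¹ by field_simp, Real.log_inv, abs_neg] at b1
  rw [show c * b / b = c by field_simp] at b2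
  rw [e1, e2, ← mul_sub, norm_mul, ci_norm γ hc, one_mul,
    show JJ γ (c * a) a w + JJ γ a b w + JJ γ b (c * b) w - JJ γ a b w
      = JJ γ (c * a) a w + JJ γ b (c * b) w by ring]
  refine (norm_add_le _ _).trans ?_
  linarith

theorem JJ_max (γ : ℝ) {a b : ℝ} (ha : 0 < a) (hab : a ≤ b) : ∃ κ : ℝ → ℂ, Continuous κ ∧
    ∀ F : ℝ → ℝ, JJ γ a b F = ∫ t in a..b, κ t * (F t : ℂ) := by
  refine ⟨_, cp_max γ ha, fun F => intervalIntegral.integral_congr fun t ht => ?_⟩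
  rw [uIcc_of_le hab] at ht
  show cp γ t * (F t : ℂ) = cp γ (max t a) * (F t : ℂ)
  rw [max_eq_left ht.1]

theorem swap_cont {F : ℝ → ℝ → ℂ} (hF : Continuous F.uncurry) (a b c d : ℝ) :
    ∫ x in a..b, ∫ y in c..d, F x y = ∫ y in c..d, ∫ x in a..b, F x y :=
  intervalIntegral_intervalIntegral_swap
    ((hF.continuousOn.integrableOn_compact (isCompact_uIcc.prod isCompact_uIcc)).mono_set
      (Set.prod_mono uIoc_subset_uIcc uIoc_subset_uIcc))

theorem JJ_Mw (γ : ℝ) {a b : ℝ} (ha : 0 < a) (hab : a ≤ b) (c : ℝ) {w : ℝ → ℝ}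
    (hw : Continuous w) : JJ γ a b (fun t => Mw w (c * t))
      = ∫ s in (0 : ℝ)..1, (((1 - s) ^ 3 / 6 : ℝ) : ℂ) * JJ γ a b (fun t => w (c * s * t)) := by
  obtain ⟨κ, hm, hκ⟩ := JJ_max γ ha hab
  simp only [hκ]
  have h := swap_cont (F := fun t s => (((1 - s) ^ 3 / 6 : ℝ) : ℂ) *
    (κ t * (w (c * s * t) : ℂ))) (by unfold Function.uncurry; fun_prop) a b 0 1
  simp only [← intervalIntegral.integral_const_mul]
  rw [← h]
  congr 1
  funext t
  unfold Mw
  rw [← intervalIntegral.integral_ofReal, ← intervalIntegral.integral_const_mul]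
  congr 1
  funext s
  rw [show c * t * s = c * s * t by ring]
  push_cast
  ring

/-- the Mellin transform of the weight -/
noncomputable def bet (γ : ℝ) : ℂ := ∫ s in (0 : ℝ)..1, (((1 - s) ^ 3 / 6 : ℝ) : ℂ) * ci γ s

theorem bet_ne (γ : ℝ) : bet γ ≠ 0 := by
  have h1 : 0 < (1 - (γ : ℂ) * Complex.I).re := by simp
  have h2 : 0 < (4 : ℂ).re := by simp
  have h := Complex.Gamma_mul_Gamma_eq_betaIntegral h1 h2
  have e : Complex.betaIntegral (1 - (γ : ℂ) * Complex.I) 4 = 6 * bet γ := by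
    unfold Complex.betaIntegral bet ci
    rw [← intervalIntegral.integral_const_mul]
    congr 1
    funext s
    rw [show (1 - (γ : ℂ) * Complex.I - 1) = -((γ : ℂ) * Complex.I) by ring,
      show (4 : ℂ) - 1 = ((3 : ℕ) : ℂ) by norm_num, Complex.cpow_natCast]
    push_cast
    ring
  intro h0
  rw [e, h0, mul_zero, mul_zero] at h
  exact mul_ne_zero (Complex.Gamma_ne_zero_of_re_pos h1) (Complex.Gamma_ne_zero_of_re_pos h2) h

/-- the mean of `|log s|` -/
noncomputable def L0 : ℝ := ∫ s in (0 : ℝ)..1, |Real.log s|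

theorem L0_nonneg : 0 ≤ L0 := intervalIntegral.integral_nonneg zero_le_one fun _ _ => abs_nonneg _

theorem abs_log_le {c : ℝ} (h1 : 1 / 2 ≤ c) (h2 : c ≤ 3) : |Real.log c| ≤ 2 := by
  have hc : 0 < c := by linarith
  have u := Real.log_le_sub_one_of_pos hc
  have l := Real.one_sub_inv_le_log_of_pos hc
  have : c⁻¹ ≤ 2 := by
    rw [inv_le_comm₀ hc two_pos]
    linarith
  rw [abs_le]
  constructor <;> linarith

theorem JJ_mean (γ : ℝ) {a b S c : ℝ} (ha : 0 < a) (hab : a ≤ b) (h1 : 1 / 2 ≤ c) (h2 : c ≤ 3)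
    {w : ℝ → ℝ} (hw : Continuous w) (hS : ∀ t, |w t| ≤ S) :
    ‖JJ γ a b (fun t => Mw w (c * t)) - ci γ c * bet γ * JJ γ a b w‖ ≤ 2 * S * (2 + L0) := by
  have hb := ha.trans_le hab
  have hc : 0 < c := by linarith
  have hS0 : 0 ≤ S := (abs_nonneg _).trans (hS 0)
  have c1 : Continuous fun s : ℝ => JJ γ a b (fun t => w (c * s * t)) := by
    obtain ⟨κ, hm, hκ⟩ := JJ_max γ ha hab
    simp only [hκ]
    refine intervalIntegral.continuous_parametric_intervalIntegral_of_continuous' ?_ a b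
    unfold Function.uncurry
    fun_prop
  have i1 : IntervalIntegrable (fun s : ℝ => (((1 - s) ^ 3 / 6 : ℝ) : ℂ) *
      JJ γ a b (fun t => w (c * s * t))) volume 0 1 :=
    Continuous.intervalIntegrable (by fun_prop) _ _
  have i2 : IntervalIntegrable (fun s : ℝ => (((1 - s) ^ 3 / 6 : ℝ) : ℂ) * ci γ s) volume 0 1 :=
    (intervalIntegral.intervalIntegrable_cpow (Or.inl (by simp))).continuousOn_mul (by fun_prop)
  have il : IntervalIntegrable (fun s : ℝ => |Real.log s|) volume 0 1 :=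
    intervalIntegral.intervalIntegrable_log'.abs
  rw [JJ_Mw γ ha hab c hw]
  unfold bet
  rw [← intervalIntegral.integral_const_mul, ← intervalIntegral.integral_mul_const,
    ← intervalIntegral.integral_sub i1 ((i2.const_mul _).mul_const _)]
  refine (intervalIntegral.norm_integral_le_of_norm_le (g := fun s => 2 * S * (2 + |Real.log s|))
    zero_le_one (ae_of_all _ fun s hs => ?_)
    ((intervalIntegrable_const.add il).const_mul _)).trans (le_of_eq ?_)
  · have h := JJ_shift γ ha hb (mul_pos hc hs.1) hw hS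
    rw [ci_mul γ hc.le hs.1.le, Real.log_mul hc.ne' hs.1.ne'] at h
    rw [show (((1 - s) ^ 3 / 6 : ℝ) : ℂ) * JJ γ a b (fun t => w (c * s * t))
        - ci γ c * ((((1 - s) ^ 3 / 6 : ℝ) : ℂ) * ci γ s) * JJ γ a b w
        = (((1 - s) ^ 3 / 6 : ℝ) : ℂ) * (JJ γ a b (fun t => w (c * s * t))
          - ci γ c * ci γ s * JJ γ a b w) by ring, norm_mul, Complex.norm_real, Real.norm_eq_abs]
    have q0 : 0 ≤ 1 - s := by linarith [hs.2]
    have q1 : |(1 - s) ^ 3 / 6| ≤ 1 := by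
      rw [abs_of_nonneg (by positivity)]
      have : (1 - s) ^ 3 ≤ 1 := pow_le_one₀ q0 (by linarith [hs.1])
      linarith
    have q2 : |Real.log c + Real.log s| ≤ 2 + |Real.log s| :=
      (abs_add_le _ _).trans (by linarith [abs_log_le h1 h2])
    calc _ ≤ 1 * (2 * S * |Real.log c + Real.log s|) := by gcongr
      _ ≤ 2 * S * (2 + |Real.log s|) := by rw [one_mul]; gcongr
  · rw [intervalIntegral.integral_const_mul, intervalIntegral.integral_add intervalIntegrable_const il]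
    simp [L0]

/-- the symbol of the positive nodes -/
noncomputable def Dp (z : ℂ) : ℂ :=
  -(7 / 2) * ((1 / 2 : ℝ) : ℂ) ^ z + 70 * ((1 : ℝ) : ℂ) ^ z - 567 / 2 * ((3 / 2 : ℝ) : ℂ) ^ z
    + 448 * ((2 : ℝ) : ℂ) ^ z - 625 / 2 * ((5 / 2 : ℝ) : ℂ) ^ z + 81 * ((3 : ℝ) : ℂ) ^ z

/-- the symbol of the negative nodes -/
noncomputable def Dm (z : ℂ) : ℂ := ((1 : ℝ) : ℂ) ^ z - 1 / 2 * ((1 / 2 : ℝ) : ℂ) ^ z

theorem JJ_HH (γ : ℝ) {a b S : ℝ} (ha : 0 < a) (hab : a ≤ b)
    {w : ℝ → ℝ} (hw : Continuous w) (hS : ∀ t, |w t| ≤ S) :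
    ‖JJ γ a b (HH w) - bet γ * (Dp (-((γ : ℂ) * Complex.I)) * JJ γ a b w
      + Dm (-((γ : ℂ) * Complex.I)) * JJ γ a b (fun u => w (-u)))‖
      ≤ 1200 * (2 * S * (2 + L0)) := by
  have hb := ha.trans_le hab
  have hv : Continuous fun u => w (-u) := by fun_prop
  have hSv : ∀ t, |(fun u => w (-u)) t| ≤ S := fun t => hS _
  have m1 := Mw_cont hw
  have m2 := Mw_cont hv
  have e : HH w = fun t => Mw (fun u => w (-u)) (1 * t) - 1 / 2 * Mw (fun u => w (-u)) (1 / 2 * t)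
      - 7 / 2 * Mw w (1 / 2 * t) + 70 * Mw w (1 * t)
      - 567 / 2 * Mw w (3 / 2 * t) + 448 * Mw w (2 * t) - 625 / 2 * Mw w (5 / 2 * t)
      + 81 * Mw w (3 * t) := by
    funext t
    unfold HH
    rw [Mw_neg, Mw_neg]
  rw [e, JJ_add γ ha hb (by fun_prop) (by fun_prop), JJ_sub γ ha hb (by fun_prop) (by fun_prop),
    JJ_add γ ha hb (by fun_prop) (by fun_prop), JJ_sub γ ha hb (by fun_prop) (by fun_prop),
    JJ_add γ ha hb (by fun_prop) (by fun_prop), JJ_sub γ ha hb (by fun_prop) (by fun_prop),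
    JJ_sub γ ha hb (by fun_prop) (by fun_prop)]
  simp only [JJ_smul]
  have b1 := JJ_mean γ ha hab (c := 1) (by norm_num) (by norm_num) hv hSv
  have b2 := JJ_mean γ ha hab (c := 1 / 2) (by norm_num) (by norm_num) hv hSv
  have b3 := JJ_mean γ ha hab (c := 1 / 2) (by norm_num) (by norm_num) hw hS
  have b4 := JJ_mean γ ha hab (c := 1) (by norm_num) (by norm_num) hw hS
  have b5 := JJ_mean γ ha hab (c := 3 / 2) (by norm_num) (by norm_num) hw hS
  have b6 := JJ_mean γ ha hab (c := 2) (by norm_num) (by norm_num) hw hS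
  have b7 := JJ_mean γ ha hab (c := 5 / 2) (by norm_num) (by norm_num) hw hS
  have b8 := JJ_mean γ ha hab (c := 3) (by norm_num) (by norm_num) hw hS
  unfold Dp Dm
  unfold ci at b1 b2 b3 b4 b5 b6 b7 b8
  generalize 2 * S * (2 + L0) = E at *
  generalize JJ γ a b (fun t => Mw (fun u => w (-u)) (1 * t)) = x1 at *
  generalize JJ γ a b (fun t => Mw (fun u => w (-u)) (1 / 2 * t)) = x2 at *
  generalize JJ γ a b (fun t => Mw w (1 / 2 * t)) = x3 at *
  generalize JJ γ a b (fun t => Mw w (1 * t)) = x4 at *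
  generalize JJ γ a b (fun t => Mw w (3 / 2 * t)) = x5 at *
  generalize JJ γ a b (fun t => Mw w (2 * t)) = x6 at *
  generalize JJ γ a b (fun t => Mw w (5 / 2 * t)) = x7 at *
  generalize JJ γ a b (fun t => Mw w (3 * t)) = x8 at *
  generalize JJ γ a b (fun u => w (-u)) = y at *
  generalize JJ γ a b w = x at *
  generalize ((1 : ℝ) : ℂ) ^ (-((γ : ℂ) * Complex.I)) = u1 at *
  generalize ((1 / 2 : ℝ) : ℂ) ^ (-((γ : ℂ) * Complex.I)) = u2 at *
  generalize ((3 / 2 : ℝ) : ℂ) ^ (-((γ : ℂ) * Complex.I)) = u3 at *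
  generalize ((2 : ℝ) : ℂ) ^ (-((γ : ℂ) * Complex.I)) = u4 at *
  generalize ((5 / 2 : ℝ) : ℂ) ^ (-((γ : ℂ) * Complex.I)) = u5 at *
  generalize ((3 : ℝ) : ℂ) ^ (-((γ : ℂ) * Complex.I)) = u6 at *
  generalize bet γ = β at *
  have sc : ∀ (q : ℝ) (v : ℂ), 0 ≤ q → ‖v‖ ≤ E → ‖(q : ℂ) * v‖ ≤ q * E := fun q v hq h => by
    rw [norm_mul, Complex.norm_real, Real.norm_of_nonneg hq]
    exact mul_le_mul_of_nonneg_left h hq
  have s2 := sc (1 / 2) _ (by norm_num) b2
  have s3 := sc (7 / 2) _ (by norm_num) b3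
  have s4 := sc 70 _ (by norm_num) b4
  have s5 := sc (567 / 2) _ (by norm_num) b5
  have s6 := sc 448 _ (by norm_num) b6
  have s7 := sc (625 / 2) _ (by norm_num) b7
  have s8 := sc 81 _ (by norm_num) b8
  have t := norm_add_le_of_le (norm_sub_le_of_le (norm_add_le_of_le (norm_sub_le_of_le
    (norm_add_le_of_le (norm_sub_le_of_le (norm_sub_le_of_le b1 s2) s3) s4) s5) s6) s7) s8
  refine le_trans (le_of_eq ?_) (t.trans (le_of_eq (by ring)))
  congr 1
  push_cast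
  ring

theorem HH_neg (w : ℝ → ℝ) (t : ℝ) : HH (fun u => w (-u)) t = HH w (-t) := by
  unfold HH
  simp only [← Mw_neg, mul_neg]

/-- the even and the odd part -/
theorem JJ_parts (γ : ℝ) {a b S K : ℝ} (ha : 0 < a) (hab : a ≤ b)
    {w : ℝ → ℝ} (hw : Continuous w) (hS : ∀ t, |w t| ≤ S) (hK : Abs w K) (σ : ℂ) (hσ : σ * σ = 1)
    (hn : ‖σ‖ = 1) :
    ‖bet γ * (Dp (-((γ : ℂ) * Complex.I)) + σ * Dm (-((γ : ℂ) * Complex.I)))‖ *
      ‖JJ γ a b w + σ * JJ γ a b (fun u => w (-u))‖ ≤ 2 * K + 2400 * (2 * S * (2 + L0)) := by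
  have hv : Continuous fun u => w (-u) := by fun_prop
  have h1 := JJ_HH γ ha hab hw hS
  have h2 := JJ_HH γ ha hab hv fun t => hS _
  simp only [neg_neg] at h2
  have k1 := (JJ_abs γ ha hab (HH_cont hw)).trans (hK a b ha hab).1
  have k2 := JJ_abs γ ha hab (HH_cont hv)
  simp only [HH_neg] at k2
  have k2' := k2.trans (hK a b ha hab).2
  have e3 : JJ γ a b (fun u => w u) = JJ γ a b w := rfl
  rw [e3] at h2
  generalize Dp (-((γ : ℂ) * Complex.I)) = P at *
  generalize Dm (-((γ : ℂ) * Complex.I)) = M at *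
  generalize JJ γ a b (HH w) = X at *
  generalize JJ γ a b (HH fun u => w (-u)) = Y at *
  generalize JJ γ a b (fun u => w (-u)) = y at *
  generalize JJ γ a b w = x at *
  generalize bet γ = β at *
  generalize 2 * S * (2 + L0) = E at *
  have e : β * (P + σ * M) * (x + σ * y)
      = X - (X - β * (P * x + M * y)) + σ * (Y - (Y - β * (P * y + M * x))) := by
    linear_combination (β * M * y) * hσ
  rw [← norm_mul, e]
  refine (norm_add_le _ _).trans ?_
  rw [norm_mul, hn, one_mul]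
  have t1 := norm_sub_le_of_le k1 h1
  have t2 := norm_sub_le_of_le k2' h2
  linarith

theorem zeros_fin {F : ℂ → ℂ} (hF : Differentiable ℂ F) {z : ℂ} (hz : F z ≠ 0) (b : ℝ) :
    ({γ : ℝ | F (-((γ : ℂ) * Complex.I)) = 0} ∩ Icc (-b) b).Finite := by
  have hc : IsCompact (Metric.closedBall (0 : ℂ) (|b| + ‖z‖)) := isCompact_closedBall _ _
  have hz' : z ∈ Metric.closedBall (0 : ℂ) (|b| + ‖z‖) := by
    rw [mem_closedBall_zero_iff]
    linarith [abs_nonneg b]
  have h := hc.finite_sdiff_of_mem_codiscreteWithin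
    (AnalyticOnNhd.preimage_zero_mem_codiscreteWithin (fun x _ => hF.analyticAt x) hz hz'
      ⟨⟨z, hz'⟩, (convex_closedBall _ _).isPreconnected⟩)
  have hinj : Function.Injective fun γ : ℝ => -((γ : ℂ) * Complex.I) := by
    intro x y hxy
    have := congrArg Complex.im hxy
    simpa using this
  refine (h.preimage hinj.injOn).subset fun γ hγ => ⟨?_, ?_⟩
  · rw [mem_closedBall_zero_iff, norm_neg, norm_mul, Complex.norm_I, mul_one, Complex.norm_real,
      Real.norm_eq_abs]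
    have h1 : |γ| ≤ b := abs_le.2 hγ.2
    linarith [le_abs_self b, norm_nonneg z]
  · exact fun h0 => h0 hγ.1

theorem cpow_diff {c : ℝ} (hc : 0 < c) : Differentiable ℂ fun z : ℂ => (c : ℂ) ^ z :=
  fun _ => differentiableAt_id.const_cpow (Or.inl (Complex.ofReal_ne_zero.2 hc.ne'))

theorem Dp_diff : Differentiable ℂ Dp := by
  have h1 := cpow_diff (c := 1 / 2) (by norm_num)
  have h2 := cpow_diff (c := 1) (by norm_num)
  have h3 := cpow_diff (c := 3 / 2) (by norm_num)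
  have h4 := cpow_diff (c := 2) (by norm_num)
  have h5 := cpow_diff (c := 5 / 2) (by norm_num)
  have h6 := cpow_diff (c := 3) (by norm_num)
  exact (((((h1.const_mul _).add (h2.const_mul _)).sub (h3.const_mul _)).add
    (h4.const_mul _)).sub (h5.const_mul _)).add (h6.const_mul _)

theorem Dm_diff : Differentiable ℂ Dm :=
  (cpow_diff (c := 1) (by norm_num)).sub ((cpow_diff (c := 1 / 2) (by norm_num)).const_mul _)

theorem Do_zero : Dp 0 + -1 * Dm 0 ≠ 0 := by
  unfold Dp Dm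
  simp only [Complex.cpow_zero]
  norm_num

theorem De_one : Dp 1 + 1 * Dm 1 ≠ 0 := by
  unfold Dp Dm
  simp only [Complex.cpow_one]
  push_cast
  norm_num

/-- the exceptional set -/
def ZZ : Set ℝ :=
  {γ : ℝ | Dp (-((γ : ℂ) * Complex.I)) + -1 * Dm (-((γ : ℂ) * Complex.I)) = 0} ∪
    ({γ : ℝ | Dp (-((γ : ℂ) * Complex.I)) + 1 * Dm (-((γ : ℂ) * Complex.I)) = 0} \ {0})

theorem ZZ_fin (b : ℝ) : (ZZ ∩ Icc (-b) b).Finite := by
  have h1 := zeros_fin (F := fun z => Dp z + -1 * Dm z) (Dp_diff.add (Dm_diff.const_mul _))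
    Do_zero b
  have h2 := zeros_fin (F := fun z => Dp z + 1 * Dm z) (Dp_diff.add (Dm_diff.const_mul _))
    De_one b
  refine (h1.union h2).subset fun γ hγ => ?_
  rcases hγ.1 with h | h
  · exact Or.inl ⟨h, hγ.2⟩
  · exact Or.inr ⟨h.1, hγ.2⟩

theorem ZZ_zero : (0 : ℝ) ∉ ZZ := by
  rintro (h | h)
  · refine Do_zero ?_
    simpa using h
  · exact h.2 rfl

theorem hom_form {γ : ℝ} (hγ : γ ∉ ZZ) {α β : ℂ} (h0 : γ = 0 → α + β = 0) :
    ∃ A : ℝ, 0 ≤ A ∧ ∀ (a b S K : ℝ) (w : ℝ → ℝ), 0 < a → a ≤ b → Continuous w →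
      (∀ t, |w t| ≤ S) → Abs w K →
      ‖α * JJ γ a b w + β * JJ γ a b (fun u => w (-u))‖
        ≤ A * (2 * K + 2400 * (2 * S * (2 + L0))) := by
  have ho : Dp (-((γ : ℂ) * Complex.I)) + -1 * Dm (-((γ : ℂ) * Complex.I)) ≠ 0 :=
    fun h => hγ (Or.inl h)
  have he : Dp (-((γ : ℂ) * Complex.I)) + 1 * Dm (-((γ : ℂ) * Complex.I)) ≠ 0 ∨ α + β = 0 := by
    by_cases hz : γ = 0
    · exact Or.inr (h0 hz)
    · exact Or.inl fun h => hγ (Or.inr ⟨h, hz⟩)
  set No := ‖bet γ * (Dp (-((γ : ℂ) * Complex.I)) + -1 * Dm (-((γ : ℂ) * Complex.I)))‖ with hNo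
  set Ne := ‖bet γ * (Dp (-((γ : ℂ) * Complex.I)) + 1 * Dm (-((γ : ℂ) * Complex.I)))‖ with hNe
  have po : 0 < No := norm_pos_iff.2 (mul_ne_zero (bet_ne γ) ho)
  have pe : 0 ≤ Ne := norm_nonneg _
  refine ⟨‖(α + β) / 2‖ / Ne + ‖(α - β) / 2‖ / No, by positivity,
    fun a b S K w ha hab hw hS hK => ?_⟩
  have h1 := JJ_parts γ ha hab hw hS hK 1 (by norm_num) (by norm_num)
  have h2 := JJ_parts γ ha hab hw hS hK (-1) (by norm_num) (by norm_num)
  rw [← hNe] at h1
  rw [← hNo] at h2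
  generalize 2 * K + 2400 * (2 * S * (2 + L0)) = E at *
  generalize JJ γ a b (fun u => w (-u)) = y at *
  generalize JJ γ a b w = x at *
  have hE : 0 ≤ E := le_trans (by positivity) h2
  rw [show α * x + β * y = (α + β) / 2 * (x + 1 * y) + (α - β) / 2 * (x + -1 * y) by ring, add_mul]
  refine norm_add_le_of_le ?_ ?_
  · rcases he with h | h
    · have pe' : 0 < Ne := norm_pos_iff.2 (mul_ne_zero (bet_ne γ) h)
      rw [norm_mul, div_mul_eq_mul_div, mul_div_assoc]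
      refine mul_le_mul_of_nonneg_left ?_ (norm_nonneg _)
      rw [le_div_iff₀ pe', mul_comm]
      exact h1
    · rw [h]
      simp
  · rw [norm_mul, div_mul_eq_mul_div, mul_div_assoc]
    refine mul_le_mul_of_nonneg_left ?_ (norm_nonneg _)
    rw [le_div_iff₀ po, mul_comm]
    exact h2

/-- the positive half of the kernel -/
noncomputable def K1 (γ a b : ℝ) : ℝ → ℂ := (Ioo a b).indicator (cp γ)

theorem K1_meas (γ a b : ℝ) : Measurable (K1 γ a b) := (cp_meas γ).indicator measurableSet_Ioo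

theorem K1_pair (γ : ℝ) {a b : ℝ} (ha : 0 < a) (hab : a ≤ b) {w : ℝ → ℝ} (hw : Continuous w) :
    Integrable (fun u => (w u : ℂ) * K1 γ a b u) ∧ ∫ u, (w u : ℂ) * K1 γ a b u = JJ γ a b w := by
  have e : (fun u => (w u : ℂ) * K1 γ a b u)
      = (Ioo a b).indicator fun u => cp γ u * (w u : ℂ) := by
    funext u
    unfold K1
    by_cases hu : u ∈ Ioo a b
    · rw [indicator_of_mem hu, indicator_of_mem hu, mul_comm]
    · rw [indicator_of_notMem hu, indicator_of_notMem hu, mul_zero]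
  rw [e]
  refine ⟨(integrable_indicator_iff measurableSet_Ioo).2 ?_, ?_⟩
  · exact ((intervalIntegrable_iff_integrableOn_Ioo_of_le hab).1
      (JJ_ii γ ha (ha.trans_le hab) hw))
  · rw [integral_indicator measurableSet_Ioo, ← integral_Ioc_eq_integral_Ioo,
      ← intervalIntegral.integral_of_le hab]
    rfl

theorem homK_eq (γ : ℝ) (α β : ℂ) {a : ℝ} (ha : 0 < a) (b : ℝ) :
    homK γ α β a b = fun u => α * K1 γ a b u + β * K1 γ a b (-u) := by
  funext u
  unfold homK K1 cp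
  by_cases hu : 0 < u
  · have h2 : -u ∉ Ioo a b := fun h => by linarith [h.1]
    rw [abs_of_pos hu, if_pos hu, indicator_of_notMem h2, mul_zero, add_zero]
    by_cases h : u ∈ Ioo a b
    · rw [indicator_of_mem h, if_pos (mem_Ioo.1 h)]
    · rw [indicator_of_notMem h, if_neg (mt mem_Ioo.2 h), mul_zero]
  · have h2 : u ∉ Ioo a b := fun h => by linarith [h.1]
    rw [abs_of_nonpos (not_lt.1 hu), if_neg hu, indicator_of_notMem h2, mul_zero, zero_add]
    by_cases h : -u ∈ Ioo a b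
    · rw [indicator_of_mem h, if_pos (mem_Ioo.1 h)]
    · rw [indicator_of_notMem h, if_neg (mt mem_Ioo.2 h), mul_zero]

theorem homK_meas (γ : ℝ) (α β : ℂ) {a : ℝ} (ha : 0 < a) (b : ℝ) :
    Measurable (homK γ α β a b) := by
  rw [homK_eq γ α β ha]
  have := K1_meas γ a b
  fun_prop

theorem homK_int (γ : ℝ) (α β : ℂ) {a b : ℝ} (ha : 0 < a) (hab : a ≤ b) :
    Integrable (homK γ α β a b) := by
  rw [homK_eq γ α β ha]
  have h := (K1_pair γ ha hab (w := fun _ => 1) continuous_const).1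
  simp only [Complex.ofReal_one, one_mul] at h
  exact (h.const_mul α).add (h.comp_neg.const_mul β)

theorem homK_pair (γ : ℝ) (α β : ℂ) {a b : ℝ} (ha : 0 < a) (hab : a ≤ b) {w : ℝ → ℝ}
    (hw : Continuous w) : ∫ u, (w u : ℂ) * homK γ α β a b u
      = α * JJ γ a b w + β * JJ γ a b (fun u => w (-u)) := by
  have hv : Continuous fun u => w (-u) := by fun_prop
  obtain ⟨i1, e1⟩ := K1_pair γ ha hab hw
  obtain ⟨i2, e2⟩ := K1_pair γ ha hab hv
  have i3 := i2.comp_neg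
  have e3 := integral_neg_eq_self (fun u => (w (-u) : ℂ) * K1 γ a b u) volume
  simp only [neg_neg] at i3 e3
  rw [homK_eq γ α β ha, ← e1, ← e2, ← e3, ← integral_const_mul, ← integral_const_mul,
    ← integral_add (i1.const_mul α) (i3.const_mul β)]
  congr 1
  funext u
  ring

theorem hom_good {B : ℝ} {d : Fin 4 → ℝ} (hT : ∀ n, Node n B d) (hB : 0 ≤ B)
    (hd : ∀ i, 0 < d i) (hs : ∑ i, d i = 1) {γ : ℝ} (hγ : γ ∉ ZZ) {α β : ℂ}
    (h0 : γ = 0 → α + β = 0) : ∃ A : ℝ, 0 ≤ A ∧ ∀ a b : ℝ, 0 < a → a ≤ b →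
      Good d A (homK γ α β a b) := by
  obtain ⟨A, hA, H⟩ := hom_form hγ h0
  have := L0_nonneg
  refine ⟨A * (2 * B + 2400 * (2 * (2 + L0))), by positivity, fun a b ha hab f hf => ?_⟩
  rw [homK_pair γ α β ha hab (ww_cont hf)]
  refine (H a b (PP d f) _ _ ha hab (ww_cont hf) (ww_le hf hd hs)
    (abs_of_node hT hB hd hs hf)).trans (le_of_eq ?_)
  ring

end Vale.Agent.N141K
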