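import Vale.Agent.N141K.C

/-!
# P141: the spline behind the single scale form, and the kernels it generates
-/

namespace Vale.Agent.N141K

open MeasureTheory Set Filter Topology
open Vale.Agent.P141 Vale.Agent.P141.PL.H620

/-- the truncated cube -/
noncomputable def tp (a s : ℝ) : ℝ := (max (a - s) 0) ^ 3 / 6

@[fun_prop]
theorem tp_cont (a : ℝ) : Continuous (tp a) := by
  unfold tp
  fun_prop

theorem tp_le {a s : ℝ} (h : s ≤ a) : tp a s = (a - s) ^ 3 / 6 := by
  unfold tp
  rw [max_eq_left (by linarith)]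

theorem tp_ge {a s : ℝ} (h : a ≤ s) : tp a s = 0 := by
  unfold tp
  rw [max_eq_right (by linarith)]
  norm_num

theorem tp_neg (a s : ℝ) : tp a (-s) = (a + s) ^ 3 / 6 + tp (-a) s := by
  rcases le_total (-s) a with h | h
  · rw [tp_le h, tp_ge (by linarith)]
    ring
  · rw [tp_ge h, tp_le (by linarith)]
    ring

theorem tp_int {l a h : ℝ} (h1 : l ≤ a) (h2 : a ≤ h) {v : ℝ → ℝ} (hv : Continuous v) :
    ∫ s in l..h, tp a s * v s = ∫ s in l..a, (a - s) ^ 3 / 6 * v s := by
  have hc : Continuous fun s => tp a s * v s := by fun_prop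
  rw [← intervalIntegral.integral_add_adjacent_intervals (hc.intervalIntegrable l a)
    (hc.intervalIntegrable a h)]
  have e1 : ∫ s in l..a, tp a s * v s = ∫ s in l..a, (a - s) ^ 3 / 6 * v s := by
    refine intervalIntegral.integral_congr fun s hs => ?_
    rw [uIcc_of_le h1] at hs
    show tp a s * v s = _
    rw [tp_le hs.2]
  have e2 : ∫ s in a..h, tp a s * v s = ∫ _ in a..h, (0 : ℝ) := by
    refine intervalIntegral.integral_congr fun s hs => ?_
    rw [uIcc_of_le h2] at hs
    show tp a s * v s = _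
    rw [tp_ge hs.1, zero_mul]
  rw [e1, e2]
  simp

theorem cube_Mw (v : ℝ → ℝ) (y : ℝ) :
    ∫ u in (0 : ℝ)..y, (y - u) ^ 3 / 6 * v u = y ^ 4 * Mw v y := by
  have h2 := intervalIntegral.smul_integral_comp_mul_left (a := 0) (b := 1)
    (fun u => (y - u) ^ 3 / 6 * v u) y
  rw [mul_zero, mul_one, smul_eq_mul] at h2
  rw [← h2]
  unfold Mw
  rw [show y ^ 4 = y * y ^ 3 by ring, mul_assoc, ← intervalIntegral.integral_const_mul (y ^ 3)]
  congr 1
  refine intervalIntegral.integral_congr fun s _ => ?_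
  ring

theorem tp_pair {a : ℝ} (h1 : -3 ≤ a) (h2 : a ≤ 3) {v : ℝ → ℝ} (hv : Continuous v) :
    ∫ s in (-3 : ℝ)..3, tp a s * v s
      = (∫ s in (-3 : ℝ)..0, (a - s) ^ 3 / 6 * v s) + a ^ 4 * Mw v a := by
  have hc : Continuous fun s => (a - s) ^ 3 / 6 * v s := by fun_prop
  rw [tp_int h1 h2 hv, ← cube_Mw, intervalIntegral.integral_add_adjacent_intervals
    (hc.intervalIntegrable _ _) (hc.intervalIntegrable _ _)]

/-- the ninefold difference -/
noncomputable def d9 (F : ℝ → ℝ) : ℝ :=
  F (-1) - 8 * F (-(1 / 2)) + 28 * F 0 - 56 * F (1 / 2) + 70 * F 1 - 56 * F (3 / 2) + 28 * F 2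
    - 8 * F (5 / 2) + F 3

theorem d9_int {F : ℝ → ℝ → ℝ} (hF : ∀ a, Continuous (F a)) (l h : ℝ) :
    ∫ s in l..h, d9 (fun a => F a s) = d9 fun a => ∫ s in l..h, F a s := by
  have i := fun a => (hF a).intervalIntegrable (μ := volume) l h
  unfold d9
  have c := fun (q a : ℝ) => (i a).const_mul q
  rw [intervalIntegral.integral_add, intervalIntegral.integral_sub, intervalIntegral.integral_add,
    intervalIntegral.integral_sub, intervalIntegral.integral_add, intervalIntegral.integral_sub,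
    intervalIntegral.integral_add, intervalIntegral.integral_sub]
  · simp only [intervalIntegral.integral_const_mul]
  all_goals
    refine Continuous.intervalIntegrable ?_ _ _
    fun_prop

/-- the spline -/
noncomputable def psi (s : ℝ) : ℝ := d9 fun a => tp a s

@[fun_prop]
theorem psi_cont : Continuous psi := by
  unfold psi d9
  fun_prop

theorem psi_zero {s : ℝ} (hs : 3 ≤ |s|) : psi s = 0 := by
  unfold psi d9
  rcases le_abs'.1 hs with h | h
  · simp only
    rw [tp_le (by linarith), tp_le (by linarith), tp_le (by linarith), tp_le (by linarith),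
      tp_le (by linarith), tp_le (by linarith), tp_le (by linarith), tp_le (by linarith),
      tp_le (by linarith)]
    ring
  · simp only
    rw [tp_ge (by linarith), tp_ge (by linarith), tp_ge (by linarith), tp_ge (by linarith),
      tp_ge (by linarith), tp_ge (by linarith), tp_ge (by linarith), tp_ge (by linarith),
      tp_ge (by linarith)]
    ring

theorem psi_pair {v : ℝ → ℝ} (hv : Continuous v) :
    ∫ s in (-3 : ℝ)..3, psi s * v s = HH v 1 := by
  have e : ∀ s, psi s * v s = d9 fun a => tp a s * v s := fun s => by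
    unfold psi d9
    ring
  simp only [e]
  rw [d9_int (F := fun a s => tp a s * v s) (fun a => by fun_prop)]
  have z := d9_int (F := fun a s => (a - s) ^ 3 / 6 * v s) (fun a => by fun_prop) (-3) 0
  have z0 : ∀ s, (d9 fun a => (a - s) ^ 3 / 6 * v s) = 0 := fun s => by
    unfold d9
    ring
  simp only [z0, intervalIntegral.integral_zero] at z
  unfold d9 at z ⊢
  simp only at z ⊢
  rw [tp_pair (by norm_num) (by norm_num) hv, tp_pair (by norm_num) (by norm_num) hv,
    tp_pair (by norm_num) (by norm_num) hv, tp_pair (by norm_num) (by norm_num) hv,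
    tp_pair (by norm_num) (by norm_num) hv, tp_pair (by norm_num) (by norm_num) hv,
    tp_pair (by norm_num) (by norm_num) hv, tp_pair (by norm_num) (by norm_num) hv,
    tp_pair (by norm_num) (by norm_num) hv]
  unfold HH
  simp only [mul_one]
  linear_combination -z

theorem HH_dil (w : ℝ → ℝ) (t : ℝ) : HH (fun s => w (t * s)) 1 = HH w t := by
  have e : ∀ y, Mw (fun s => w (t * s)) y = Mw w (y * t) := fun y => by
    unfold Mw
    congr 1
    funext s
    simp only
    rw [show t * (y * s) = y * t * s by ring]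
  unfold HH
  simp only [e, mul_one, neg_mul]

theorem cube_int (l a : ℝ) : ∫ s in l..a, (a - s) ^ 3 / 6 = (a - l) ^ 4 / 24 := by
  rw [intervalIntegral.integral_div, intervalIntegral.integral_comp_sub_left (fun x => x ^ 3) a,
    integral_pow]
  norm_num
  ring

theorem tp_int0 {a h : ℝ} (h1 : 0 ≤ a) (h2 : a ≤ h) : ∫ s in (0 : ℝ)..h, tp a s = a ^ 4 / 24 := by
  have := tp_int h1 h2 (v := fun _ => 1) continuous_const
  simp only [mul_one] at this
  rw [this, cube_int, sub_zero]

theorem tp_int1 {a h : ℝ} (h1 : a ≤ 0) (h2 : 0 ≤ h) : ∫ s in (0 : ℝ)..h, tp a s = 0 := by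
  have e2 : ∫ s in (0 : ℝ)..h, tp a s = ∫ _ in (0 : ℝ)..h, (0 : ℝ) := by
    refine intervalIntegral.integral_congr fun s hs => ?_
    rw [uIcc_of_le h2] at hs
    exact tp_ge (h1.trans hs.1)
  rw [e2]
  simp

theorem psi_pos_int : ∫ s in (0 : ℝ)..3, psi s = -(1 / 48) := by
  unfold psi
  rw [d9_int (F := tp) tp_cont]
  unfold d9
  simp only
  rw [tp_int1 (by norm_num) (by norm_num), tp_int1 (by norm_num) (by norm_num),
    tp_int1 (by norm_num) (by norm_num), tp_int0 (by norm_num) (by norm_num),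
    tp_int0 (by norm_num) (by norm_num), tp_int0 (by norm_num) (by norm_num),
    tp_int0 (by norm_num) (by norm_num), tp_int0 (by norm_num) (by norm_num),
    tp_int0 (by norm_num) (by norm_num)]
  norm_num

theorem psi_neg_int : ∫ s in (-3 : ℝ)..0, psi s = 1 / 48 := by
  have h := psi_pair (v := fun _ => 1) continuous_const
  have z : HH (fun _ => 1) 1 = 0 := by
    unfold HH Mw
    ring
  simp only [mul_one] at h
  rw [z, ← intervalIntegral.integral_add_adjacent_intervals (psi_cont.intervalIntegrable _ 0)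
    (psi_cont.intervalIntegrable 0 _), psi_pos_int] at h
  linarith

/-- a combination of the spline and its reflection -/
noncomputable def gg (c₁ c₂ s : ℝ) : ℝ := c₁ * psi s + c₂ * psi (-s)

@[fun_prop]
theorem gg_cont (c₁ c₂ : ℝ) : Continuous (gg c₁ c₂) := by
  unfold gg
  fun_prop

theorem gg_zero (c₁ c₂ : ℝ) {s : ℝ} (hs : 3 ≤ |s|) : gg c₁ c₂ s = 0 := by
  unfold gg
  rw [psi_zero hs, psi_zero (by rwa [abs_neg])]
  ring

theorem gg_pair (c₁ c₂ : ℝ) {w : ℝ → ℝ} (hw : Continuous w) (t : ℝ) :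
    ∫ s in (-3 : ℝ)..3, gg c₁ c₂ s * w (t * s) = c₁ * HH w t + c₂ * HH w (-t) := by
  have h1 := psi_pair (v := fun s => w (t * s)) (by fun_prop)
  have h2 := psi_pair (v := fun s => w (-t * s)) (by fun_prop)
  have h3 := intervalIntegral.integral_comp_neg (a := -3) (b := 3)
    (fun s => psi s * w (-t * s))
  simp only [neg_neg, neg_mul_neg] at h3
  rw [HH_dil] at h1 h2
  rw [← h1, ← h2, ← h3, ← intervalIntegral.integral_const_mul,
    ← intervalIntegral.integral_const_mul, ← intervalIntegral.integral_add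
      (Continuous.intervalIntegrable (by fun_prop) _ _)
      (Continuous.intervalIntegrable (by fun_prop) _ _)]
  congr 1
  funext s
  unfold gg
  ring

theorem gg_pos_int (c₁ c₂ : ℝ) : ∫ s in (0 : ℝ)..3, gg c₁ c₂ s = (c₂ - c₁) / 48 := by
  have h3 := intervalIntegral.integral_comp_neg (a := 0) (b := 3) psi
  rw [neg_zero, psi_neg_int] at h3
  unfold gg
  rw [intervalIntegral.integral_add (Continuous.intervalIntegrable (by fun_prop) _ _)
    (Continuous.intervalIntegrable (by fun_prop) _ _), intervalIntegral.integral_const_mul,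
    intervalIntegral.integral_const_mul, psi_pos_int, h3]
  ring

theorem gg_neg (c₁ c₂ s : ℝ) : gg c₁ c₂ (-s) = gg c₂ c₁ s := by
  unfold gg
  rw [neg_neg, add_comm]

/-- the mean of `g` between `0` and `s` -/
noncomputable def av (g : ℝ → ℝ) (s : ℝ) : ℝ := ∫ τ in (0 : ℝ)..1, g (s * τ)

theorem av_cont {g : ℝ → ℝ} (hg : Continuous g) : Continuous (av g) := by
  unfold av
  refine intervalIntegral.continuous_parametric_intervalIntegral_of_continuous' ?_ 0 1
  unfold Function.uncurry
  fun_prop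

theorem av_eq (g : ℝ → ℝ) {s : ℝ} (hs : s ≠ 0) : av g s = (∫ u in (0 : ℝ)..s, g u) / s := by
  have h2 := intervalIntegral.smul_integral_comp_mul_left (a := 0) (b := 1) g s
  rw [mul_zero, mul_one, smul_eq_mul] at h2
  rw [← h2]
  unfold av
  field_simp

theorem av_bd {g : ℝ → ℝ} {B : ℝ} (hB : ∀ s, ‖g s‖ ≤ B) (s : ℝ) : ‖av g s‖ ≤ B := by
  have := intervalIntegral.norm_integral_le_of_norm_le_const (a := 0) (b := 1)
    (f := fun τ => g (s * τ)) fun τ _ => hB _
  simpa [av] using this

theorem av_neg (c₁ c₂ s : ℝ) : av (gg c₁ c₂) (-s) = av (gg c₂ c₁) s := by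
  unfold av
  simp only [neg_mul, gg_neg]

theorem av_tail_pos (c₁ c₂ : ℝ) {s : ℝ} (hs : 3 ≤ s) : av (gg c₁ c₂) s = (c₂ - c₁) / 48 / s := by
  have hc := gg_cont c₁ c₂
  rw [av_eq _ (by linarith), ← intervalIntegral.integral_add_adjacent_intervals
    (hc.intervalIntegrable 0 3) (hc.intervalIntegrable 3 s), gg_pos_int]
  have e2 : ∫ u in (3 : ℝ)..s, gg c₁ c₂ u = ∫ _ in (3 : ℝ)..s, (0 : ℝ) := by
    refine intervalIntegral.integral_congr fun u hu => ?_
    rw [uIcc_of_le hs] at hu
    exact gg_zero c₁ c₂ (hu.1.trans (le_abs_self u))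
  rw [e2]
  simp

theorem av_tail (c₁ c₂ : ℝ) {s : ℝ} (hs : 3 ≤ |s|) : av (gg c₁ c₂) s = (c₂ - c₁) / 48 / s := by
  rcases le_abs'.1 hs with h | h
  · have := av_tail_pos c₂ c₁ (s := -s) (by linarith)
    rw [av_neg] at this
    rw [this]
    ring
  · exact av_tail_pos c₁ c₂ h

theorem av_tp {a : ℝ} (h1 : 0 < a) (h2 : a ≤ 3) :
    ∫ s in (0 : ℝ)..3, av (tp a) s = a ^ 4 * (25 / 12 + (Real.log 3 - Real.log a)) / 24 := by
  have hc := av_cont (tp_cont a)
  rw [← intervalIntegral.integral_add_adjacent_intervals (hc.intervalIntegrable 0 a)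
    (hc.intervalIntegrable a 3)]
  have e1 : ∫ s in (0 : ℝ)..a, av (tp a) s
      = ∫ s in (0 : ℝ)..a, (4 * a ^ 3 - 6 * a ^ 2 * s + 4 * a * s ^ 2 - s ^ 3) / 24 := by
    refine intervalIntegral.integral_congr_ae (ae_of_all _ fun s hs => ?_)
    rw [uIoc_of_le h1.le] at hs
    have hs0 := hs.1.ne'
    have ht := tp_cont a
    have e3 : ∫ u in s..a, tp a u = (a - s) ^ 4 / 24 := by
      rw [← cube_int]
      refine intervalIntegral.integral_congr fun u hu => ?_
      rw [uIcc_of_le hs.2] at hu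
      exact tp_le hu.2
    have e4 := intervalIntegral.integral_add_adjacent_intervals (μ := volume)
      (ht.intervalIntegrable 0 s) (ht.intervalIntegrable s a)
    rw [e3, tp_int0 h1.le le_rfl] at e4
    rw [av_eq _ hs0, eq_sub_of_add_eq e4]
    field_simp
    ring
  have e2 : ∫ s in a..3, av (tp a) s = ∫ s in a..3, a ^ 4 / 24 * s⁻¹ := by
    refine intervalIntegral.integral_congr fun s hs => ?_
    rw [uIcc_of_le h2] at hs
    show av (tp a) s = _
    rw [av_eq _ (h1.trans_le hs.1).ne', tp_int0 h1.le hs.1, div_eq_mul_inv]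
  have e5 : ∫ s in (0 : ℝ)..a, (4 * a ^ 3 - 6 * a ^ 2 * s + 4 * a * s ^ 2 - s ^ 3) / 24
      = a ^ 4 * (25 / 12) / 24 := by
    have h := intervalIntegral.integral_eq_sub_of_hasDerivAt (a := 0) (b := a)
      (f := fun s => (4 * a ^ 3 * s - 3 * a ^ 2 * s ^ 2 + 4 / 3 * a * s ^ 3 - s ^ 4 / 4) / 24)
      (f' := fun s => (4 * a ^ 3 - 6 * a ^ 2 * s + 4 * a * s ^ 2 - s ^ 3) / 24) (fun s _ => by
        have l := hasDerivAt_id s
        refine ((((((l.const_mul (4 * a ^ 3)).sub ((l.pow 2).const_mul (3 * a ^ 2))).add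
          ((l.pow 3).const_mul (4 / 3 * a))).sub ((l.pow 4).div_const 4)).div_const
            24)).congr_deriv ?_
        simp only [id]
        norm_num
        ring)
      (Continuous.intervalIntegrable (by fun_prop) _ _)
    rw [h]
    ring
  rw [e1, e2, e5, intervalIntegral.integral_const_mul, integral_inv_of_pos h1 (by norm_num),
    Real.log_div (by norm_num) h1.ne']
  ring

/-- the mass of the even kernel -/
noncomputable def W0 : ℝ := -(2096 * Real.log 2 - 405 * Real.log 3 - 625 * Real.log 5) / 48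

theorem log_indep (m n k : ℕ) (hm : m ≠ 0) :
    (m : ℝ) * Real.log 2 ≠ n * Real.log 3 + k * Real.log 5 := by
  intro h
  have h1 : Real.log (((2 ^ m : ℕ) : ℝ)) = Real.log (((3 ^ n * 5 ^ k : ℕ) : ℝ)) := by
    push_cast
    rw [Real.log_mul (by positivity) (by positivity), Real.log_pow, Real.log_pow, Real.log_pow, h]
  have p1 : (0 : ℝ) < ((2 ^ m : ℕ) : ℝ) := by positivity
  have p2 : (0 : ℝ) < ((3 ^ n * 5 ^ k : ℕ) : ℝ) := by positivity
  have h2 := Nat.cast_injective (Real.log_injOn_pos p1 p2 h1)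
  have o : Odd (3 ^ n * 5 ^ k) := (Odd.pow ⟨1, rfl⟩).mul (Odd.pow ⟨2, rfl⟩)
  rw [← h2] at o
  exact Nat.not_even_iff_odd.2 o (Nat.even_pow.2 ⟨even_two, hm⟩)

theorem W0_ne : W0 ≠ 0 := by
  intro h
  refine log_indep 2096 405 625 (by norm_num) ?_
  unfold W0 at h
  push_cast
  linarith

theorem gg_even {s : ℝ} (hs : 0 ≤ s) : gg 1 1 s = -64 * tp (1 / 2) s + 71 * tp 1 s
    - 56 * tp (3 / 2) s + 28 * tp 2 s - 8 * tp (5 / 2) s + tp 3 s := by
  unfold gg psi d9
  simp only [tp_neg, neg_neg, neg_zero]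
  rw [tp_ge (a := -1) (by linarith), tp_ge (a := -(1 / 2)) (by linarith), tp_ge (a := 0) hs,
    tp_ge (a := -(3 / 2)) (by linarith), tp_ge (a := -2) (by linarith),
    tp_ge (a := -(5 / 2)) (by linarith), tp_ge (a := -3) (by linarith)]
  ring

theorem av_even : ∫ s in (0 : ℝ)..3, av (gg 1 1) s = W0 := by
  have e : ∫ s in (0 : ℝ)..3, av (gg 1 1) s = ∫ s in (0 : ℝ)..3, (-64 * av (tp (1 / 2)) s
      + 71 * av (tp 1) s - 56 * av (tp (3 / 2)) s + 28 * av (tp 2) s - 8 * av (tp (5 / 2)) s
      + av (tp 3) s) := by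
    refine intervalIntegral.integral_congr fun s hs => ?_
    rw [uIcc_of_le (by norm_num)] at hs
    unfold av
    simp only [← intervalIntegral.integral_const_mul]
    rw [← intervalIntegral.integral_add, ← intervalIntegral.integral_sub,
      ← intervalIntegral.integral_add, ← intervalIntegral.integral_sub,
      ← intervalIntegral.integral_add]
    · refine intervalIntegral.integral_congr fun τ hτ => ?_
      rw [uIcc_of_le (by norm_num)] at hτ
      exact gg_even (mul_nonneg hs.1 hτ.1)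
    all_goals
      refine Continuous.intervalIntegrable ?_ _ _
      fun_prop
  have c := fun a => av_cont (tp_cont a)
  rw [e, intervalIntegral.integral_add, intervalIntegral.integral_sub,
    intervalIntegral.integral_add, intervalIntegral.integral_sub, intervalIntegral.integral_add]
  · simp only [intervalIntegral.integral_const_mul]
    rw [av_tp (by norm_num) (by norm_num), av_tp (by norm_num) (by norm_num),
      av_tp (by norm_num) (by norm_num), av_tp (by norm_num) (by norm_num),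
      av_tp (by norm_num) (by norm_num), av_tp (by norm_num) (by norm_num),
      Real.log_div (by norm_num) (by norm_num), Real.log_div (by norm_num) (by norm_num),
      Real.log_div (by norm_num) (by norm_num), Real.log_one]
    unfold W0
    ring
  all_goals
    refine Continuous.intervalIntegrable ?_ _ _
    fun_prop

theorem av_mass (c₁ c₂ : ℝ) : ∫ s in (-3 : ℝ)..3, av (gg c₁ c₂) s = (c₁ + c₂) * W0 := by
  have h1 := av_cont (gg_cont c₁ c₂)
  have h2 := av_cont (gg_cont c₂ c₁)
  have h3 := intervalIntegral.integral_comp_neg (a := 0) (b := 3) (av (gg c₁ c₂))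
  simp only [av_neg, neg_zero] at h3
  rw [← intervalIntegral.integral_add_adjacent_intervals (h1.intervalIntegrable _ 0)
    (h1.intervalIntegrable 0 _), ← h3, ← intervalIntegral.integral_add (h2.intervalIntegrable _ _)
    (h1.intervalIntegrable _ _), ← av_even, ← intervalIntegral.integral_const_mul]
  congr 1
  funext s
  unfold av
  rw [← intervalIntegral.integral_const_mul, ← intervalIntegral.integral_add
    (Continuous.intervalIntegrable (by fun_prop) _ _)
    (Continuous.intervalIntegrable (by fun_prop) _ _)]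
  congr 1
  funext τ
  unfold gg
  ring

/-- the kernel of the scales between `a` and `b` -/
noncomputable def GG (g : ℝ → ℝ) (a b u : ℝ) : ℝ := ∫ t in a..b, g (u / t) / t ^ 2

theorem dil_sub {g : ℝ → ℝ} (hg : Continuous g) {a b : ℝ} (ha : 0 < a) (hb : 0 < b) (u : ℝ) :
    dil (av g) a u - dil (av g) b u = (GG g a b u : ℂ) := by
  have hc : Continuous fun σ => g (u * σ) := by fun_prop
  have e : ∀ t : ℝ, 0 < t → av g (u / t) / t = ∫ σ in (0 : ℝ)..t⁻¹, g (u * σ) := by
    intro t ht
    have h2 := intervalIntegral.smul_integral_comp_mul_left (a := 0) (b := 1)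
      (fun σ => g (u * σ)) t⁻¹
    rw [mul_zero, mul_one, smul_eq_mul] at h2
    rw [← h2, div_eq_inv_mul]
    unfold av
    congr 2
    funext τ
    rw [show u / t * τ = u * (t⁻¹ * τ) by ring]
  have h := intervalIntegral.integral_eq_sub_of_hasDerivAt (a := a) (b := b)
    (f := fun t => -∫ σ in (0 : ℝ)..t⁻¹, g (u * σ)) (f' := fun t => g (u / t) / t ^ 2)
    (fun t ht => by
      have h0 := (pos_of_uIcc ha hb ht).ne'
      have d1 := (hc.integral_hasStrictDerivAt 0 t⁻¹).hasDerivAt.comp t (hasDerivAt_inv h0)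
      refine d1.neg.congr_deriv ?_
      rw [div_eq_mul_inv u t]
      ring)
    (ContinuousOn.intervalIntegrable fun t ht => ContinuousAt.continuousWithinAt (by
      have h0 := (pos_of_uIcc ha hb ht).ne'
      have h1 : t ^ 2 ≠ 0 := pow_ne_zero 2 h0
      fun_prop (disch := assumption)))
  unfold dil GG
  rw [h, e a ha, e b hb]
  push_cast
  ring

theorem GG_zero {g : ℝ → ℝ} (h0 : ∀ s, 3 ≤ |s| → g s = 0) {b t u : ℝ} (ht : 0 < t) (hb : t ≤ b)
    (hu : u ∉ Ioc (-(3 * b)) (3 * b)) : g (u / t) = 0 := by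
  refine h0 _ ?_
  rw [abs_div, abs_of_pos ht, le_div_iff₀ ht]
  rw [mem_Ioc, not_and_or, not_lt, not_le] at hu
  rcases hu with h | h
  · exact le_abs'.2 (Or.inl (by linarith))
  · exact le_abs'.2 (Or.inr (by linarith))

theorem GG_supp {g : ℝ → ℝ} (h0 : ∀ s, 3 ≤ |s| → g s = 0) {a b u : ℝ} (ha : 0 < a) (hab : a ≤ b)
    (hu : u ∉ Ioc (-(3 * b)) (3 * b)) : GG g a b u = 0 := by
  have e2 : GG g a b u = ∫ _ in a..b, (0 : ℝ) := by
    refine intervalIntegral.integral_congr fun t ht => ?_
    rw [uIcc_of_le hab] at ht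
    show g (u / t) / t ^ 2 = 0
    rw [GG_zero h0 (ha.trans_le ht.1) ht.2 hu, zero_div]
  rw [e2]
  simp

theorem GG_max (g : ℝ → ℝ) {a b : ℝ} (hab : a ≤ b) (u : ℝ) :
    GG g a b u = ∫ t in a..b, g (u / max t a) / (max t a) ^ 2 := by
  refine intervalIntegral.integral_congr fun t ht => ?_
  rw [uIcc_of_le hab] at ht
  show g (u / t) / t ^ 2 = _
  rw [max_eq_left ht.1]

theorem ker_cont {g : ℝ → ℝ} (hg : Continuous g) {a : ℝ} (ha : 0 < a) :
    Continuous fun p : ℝ × ℝ => g (p.1 / max p.2 a) / (max p.2 a) ^ 2 := by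
  have h : ∀ p : ℝ × ℝ, max p.2 a ≠ 0 := fun p => (lt_max_of_lt_right ha).ne'
  exact (hg.comp (continuous_fst.div (by fun_prop) h)).div (by fun_prop)
    fun p => pow_ne_zero 2 (h p)

theorem GG_cont {g : ℝ → ℝ} (hg : Continuous g) {a b : ℝ} (ha : 0 < a) (hab : a ≤ b) :
    Continuous (GG g a b) := by
  have e : GG g a b = fun u => ∫ t in a..b, g (u / max t a) / (max t a) ^ 2 :=
    funext fun u => GG_max g hab u
  rw [e]
  exact intervalIntegral.continuous_parametric_intervalIntegral_of_continuous' (ker_cont hg ha) a b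

theorem GG_int {g : ℝ → ℝ} (hg : Continuous g) (h0 : ∀ s, 3 ≤ |s| → g s = 0) {a b : ℝ}
    (ha : 0 < a) (hab : a ≤ b) {w : ℝ → ℝ} (hw : Continuous w) :
    Integrable fun u => w u * GG g a b u := by
  refine (hw.mul (GG_cont hg ha hab)).integrable_of_hasCompactSupport
    (HasCompactSupport.intro (isCompact_Icc (a := -(3 * b)) (b := 3 * b)) fun u hu => ?_)
  rw [Pi.mul_apply, GG_supp h0 ha hab fun h => hu (Ioc_subset_Icc_self h), mul_zero]

theorem GG_pair {g : ℝ → ℝ} (hg : Continuous g) (h0 : ∀ s, 3 ≤ |s| → g s = 0) {a b : ℝ}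
    (ha : 0 < a) (hab : a ≤ b) {w : ℝ → ℝ} (hw : Continuous w) :
    ∫ u, w u * GG g a b u = ∫ t in a..b, (∫ s in (-3 : ℝ)..3, g s * w (t * s)) / t := by
  have s1 : Function.support (fun u => w u * GG g a b u) ⊆ Ioc (-(3 * b)) (3 * b) := by
    intro u hu
    by_contra h
    exact hu (by simp only [GG_supp h0 ha hab h, mul_zero])
  rw [← intervalIntegral.integral_eq_integral_of_support_subset s1]
  simp only [GG_max g hab, ← intervalIntegral.integral_const_mul]
  have hF : Continuous (Function.uncurry fun u t => w u * (g (u / max t a) / (max t a) ^ 2)) :=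
    (hw.comp continuous_fst).mul (ker_cont hg ha)
  rw [intervalIntegral_intervalIntegral_swap
    ((hF.continuousOn.integrableOn_compact (isCompact_uIcc.prod isCompact_uIcc)).mono_set
      (Set.prod_mono uIoc_subset_uIcc uIoc_subset_uIcc))]
  refine intervalIntegral.integral_congr fun t ht => ?_
  rw [uIcc_of_le hab] at ht
  have t0 := ha.trans_le ht.1
  show ∫ u in (-(3 * b))..(3 * b), w u * (g (u / max t a) / (max t a) ^ 2)
    = (∫ s in (-3 : ℝ)..3, g s * w (t * s)) / t
  rw [max_eq_left ht.1]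
  have s2 : Function.support (fun u => w u * (g (u / t) / t ^ 2)) ⊆ Ioc (-(3 * b)) (3 * b) := by
    intro u hu
    by_contra h
    exact hu (by simp only [GG_zero h0 t0 ht.2 h, zero_div, mul_zero])
  have s3 : Function.support (fun u => w u * (g (u / t) / t ^ 2)) ⊆ Ioc (t * -3) (t * 3) := by
    intro u hu
    by_contra h
    rw [show t * -3 = -(3 * t) by ring, mul_comm t 3] at h
    exact hu (by simp only [GG_zero h0 t0 le_rfl h, zero_div, mul_zero])
  rw [intervalIntegral.integral_eq_integral_of_support_subset s2,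
    ← intervalIntegral.integral_eq_integral_of_support_subset s3,
    ← intervalIntegral.smul_integral_comp_mul_left (fun u => w u * (g (u / t) / t ^ 2)) t,
    smul_eq_mul, ← intervalIntegral.integral_const_mul, ← intervalIntegral.integral_div]
  congr 1
  funext s
  rw [mul_div_cancel_left₀ s t0.ne']
  field_simp

theorem absH_ii {H : ℝ → ℝ} (hH : Continuous H) {a b : ℝ} (ha : 0 < a) (hb : 0 < b) :
    IntervalIntegrable (fun t => H t / t) volume a b := by
  refine ContinuousOn.intervalIntegrable fun t ht => ContinuousAt.continuousWithinAt ?_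
  have := (pos_of_uIcc ha hb ht).ne'
  fun_prop (disch := assumption)

theorem GG_bd (c₁ c₂ : ℝ) {a b : ℝ} (ha : 0 < a) (hab : a ≤ b) {w : ℝ → ℝ} (hw : Continuous w) :
    |∫ u, w u * GG (gg c₁ c₂) a b u|
      ≤ ∫ t in a..b, (|c₁| * |HH w t| + |c₂| * |HH w (-t)|) / t := by
  have hH := HH_cont hw
  rw [GG_pair (gg_cont c₁ c₂) (fun _ => gg_zero c₁ c₂) ha hab hw, ← Real.norm_eq_abs]
  refine intervalIntegral.norm_integral_le_of_norm_le hab (ae_of_all _ fun t ht => ?_)
    (absH_ii (by fun_prop) ha (ha.trans_le hab))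
  have t0 := ha.trans ht.1
  rw [gg_pair c₁ c₂ hw, Real.norm_eq_abs, abs_div, abs_of_pos t0, ← abs_mul, ← abs_mul]
  exact div_le_div_of_nonneg_right (abs_add_le _ _) t0.le

/-- the kernel of a sum of increments -/
noncomputable def KS (g : ℝ → ℝ) (a : ℕ → ℝ) (N : ℕ) (c : ℕ → ℂ) (u : ℝ) : ℂ :=
  ∑ j ∈ Finset.range N, c j * (GG g (a j) (a (j + 1)) u : ℂ)

section

variable {a : ℕ → ℝ}

theorem sc_pos (h0 : 0 < a 0) (hm : Monotone a) (j : ℕ) : 0 < a j := h0.trans_le (hm j.zero_le)

theorem KS_cont {g : ℝ → ℝ} (hg : Continuous g) (h0 : 0 < a 0) (hm : Monotone a) (N : ℕ)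
    (c : ℕ → ℂ) : Continuous (KS g a N c) := by
  refine continuous_finsetSum _ fun j _ => ?_
  have := GG_cont hg (sc_pos h0 hm j) (hm j.le_succ)
  fun_prop

theorem KS_int {g : ℝ → ℝ} (hg : Continuous g) (hz : ∀ s, 3 ≤ |s| → g s = 0) (h0 : 0 < a 0)
    (hm : Monotone a) (N : ℕ) (c : ℕ → ℂ) : Integrable (KS g a N c) := by
  refine integrable_finsetSum _ fun j _ => ?_
  have h := GG_int hg hz (sc_pos h0 hm j) (hm j.le_succ) (w := fun _ => 1) continuous_const
  simp only [one_mul] at h
  exact h.ofReal.const_mul _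

theorem KS_form (c₁ c₂ : ℝ) (h0 : 0 < a 0) (hm : Monotone a) (N : ℕ) {c : ℕ → ℂ}
    (hc : ∀ j, ‖c j‖ ≤ 1) {w : ℝ → ℝ} (hw : Continuous w) {K : ℝ} (hK : Abs w K) :
    ‖∫ u, (w u : ℂ) * KS (gg c₁ c₂) a N c u‖ ≤ (|c₁| + |c₂|) * K := by
  have hH := HH_cont hw
  have ap := sc_pos h0 hm
  have i := fun j => GG_int (gg_cont c₁ c₂) (fun _ => gg_zero c₁ c₂) (ap j) (hm j.le_succ) hw
  have e : ∀ u, (w u : ℂ) * KS (gg c₁ c₂) a N c u = ∑ j ∈ Finset.range N,
      c j * ((w u * GG (gg c₁ c₂) (a j) (a (j + 1)) u : ℝ) : ℂ) := fun u => by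
    unfold KS
    rw [Finset.mul_sum]
    refine Finset.sum_congr rfl fun j _ => ?_
    push_cast
    ring
  simp only [e]
  rw [integral_finsetSum _ fun j _ => (i j).ofReal.const_mul _]
  have b : ∀ j, ‖∫ u, c j * ((w u * GG (gg c₁ c₂) (a j) (a (j + 1)) u : ℝ) : ℂ)‖
      ≤ ∫ t in (a j)..(a (j + 1)), (|c₁| * |HH w t| + |c₂| * |HH w (-t)|) / t := fun j => by
    rw [integral_const_mul, integral_complex_ofReal, norm_mul, Complex.norm_real, Real.norm_eq_abs]
    exact (mul_le_of_le_one_left (abs_nonneg _) (hc j)).trans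
      (GG_bd c₁ c₂ (ap j) (hm j.le_succ) hw)
  refine (norm_sum_le_of_le _ fun j _ => b j).trans ?_
  rw [intervalIntegral.sum_integral_adjacent_intervals fun j _ =>
    absH_ii (by fun_prop) (ap j) (ap (j + 1))]
  obtain ⟨k1, k2⟩ := hK (a 0) (a N) h0 (hm N.zero_le)
  simp only [add_div, mul_div_assoc]
  rw [intervalIntegral.integral_add ((absH_ii (by fun_prop) h0 (ap N)).const_mul _)
    ((absH_ii (H := fun t => |HH w (-t)|) (by fun_prop) h0 (ap N)).const_mul _),
    intervalIntegral.integral_const_mul, intervalIntegral.integral_const_mul, add_mul]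
  gcongr

theorem KS_good {B : ℝ} {d : Fin 4 → ℝ} (hT : ∀ n, Node n B d) (hB : 0 ≤ B)
    (hd : ∀ i, 0 < d i) (hs : ∑ i, d i = 1) (c₁ c₂ : ℝ) (h0 : 0 < a 0) (hm : Monotone a) (N : ℕ)
    {c : ℕ → ℂ} (hc : ∀ j, ‖c j‖ ≤ 1) :
    Good d ((|c₁| + |c₂|) * B) (KS (gg c₁ c₂) a N c) := fun f hf => by
  rw [mul_assoc]
  exact KS_form c₁ c₂ h0 hm N hc (ww_cont hf) (abs_of_node hT hB hd hs hf)

end

end Vale.Agent.N141K
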