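import Vale.Agent.N141K.D

/-!
# P141: random signs, the square function and the sum of the squares of the norms
-/

namespace Vale.Agent.N141K

open MeasureTheory Set Filter Topology
open scoped ENNReal SchwartzMap
open Vale.Agent.P141 Vale.Agent.P141.PL.H620 Vale.Agent.P141.H97

/-- the signs attached to a finite set -/
def sg (S : Finset ℕ) (j : ℕ) : ℂ := if j ∈ S then 1 else -1

theorem sg_norm (S : Finset ℕ) (j : ℕ) : ‖sg S j‖ ≤ 1 := by
  unfold sg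
  split_ifs <;> simp

/-- the signed sum -/
noncomputable def XS (D : ℕ → ℂ) (N : ℕ) (S : Finset ℕ) : ℂ := ∑ j ∈ Finset.range N, sg S j * D j

theorem moments (D : ℕ → ℂ) (N : ℕ) : ∀ z : ℂ,
    ∑ S ∈ (Finset.range N).powerset, ‖z + XS D N S‖ ^ 2
      = 2 ^ N * (‖z‖ ^ 2 + ∑ j ∈ Finset.range N, ‖D j‖ ^ 2) ∧
    ∑ S ∈ (Finset.range N).powerset, ‖z + XS D N S‖ ^ 4
      ≤ 2 ^ N * (‖z‖ ^ 4 + 6 * ‖z‖ ^ 2 * ∑ j ∈ Finset.range N, ‖D j‖ ^ 2
        + 3 * (∑ j ∈ Finset.range N, ‖D j‖ ^ 2) ^ 2) := by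
  induction N with
  | zero => intro z; simp [XS]
  | succ N ih =>
    intro z
    have hN : N ∉ Finset.range N := Finset.notMem_range_self
    have e1 : ∀ S ∈ (Finset.range N).powerset, z + XS D (N + 1) S = z - D N + XS D N S := by
      intro S hS
      have h : N ∉ S := fun h => hN (Finset.mem_powerset.1 hS h)
      unfold XS
      rw [Finset.sum_range_succ, sg, if_neg h]
      ring
    have e2 : ∀ S : Finset ℕ, z + XS D (N + 1) (insert N S) = z + D N + XS D N S := by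
      intro S
      unfold XS
      rw [Finset.sum_range_succ, sg, if_pos (Finset.mem_insert_self N S)]
      have : ∑ j ∈ Finset.range N, sg (insert N S) j * D j
          = ∑ j ∈ Finset.range N, sg S j * D j := by
        refine Finset.sum_congr rfl fun j hj => ?_
        have hj' : j ≠ N := (Finset.mem_range.1 hj).ne
        unfold sg
        simp only [Finset.mem_insert, hj', false_or]
      rw [this]
      ring
    have split : ∀ k : ℕ, ∑ S ∈ (Finset.range (N + 1)).powerset, ‖z + XS D (N + 1) S‖ ^ k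
        = ∑ S ∈ (Finset.range N).powerset, ‖z - D N + XS D N S‖ ^ k
          + ∑ S ∈ (Finset.range N).powerset, ‖z + D N + XS D N S‖ ^ k := by
      intro k
      rw [Finset.range_add_one, Finset.sum_powerset_insert hN]
      congr 1
      · exact Finset.sum_congr rfl fun S hS => by rw [e1 S hS]
      · exact Finset.sum_congr rfl fun S _ => by rw [e2 S]
    obtain ⟨a1, a2⟩ := ih (z - D N)
    obtain ⟨b1, b2⟩ := ih (z + D N)
    have par : ‖z + D N‖ ^ 2 + ‖z - D N‖ ^ 2 = 2 * (‖z‖ ^ 2 + ‖D N‖ ^ 2) := by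
      have := parallelogram_law_with_norm ℂ z (D N)
      nlinarith
    have u1 : ‖z + D N‖ ^ 2 ≤ (‖z‖ + ‖D N‖) ^ 2 :=
      pow_le_pow_left₀ (norm_nonneg _) (norm_add_le _ _) 2
    have u2 : ‖z - D N‖ ^ 2 ≤ (‖z‖ + ‖D N‖) ^ 2 :=
      pow_le_pow_left₀ (norm_nonneg _) (norm_sub_le _ _) 2
    have hs : 0 ≤ ∑ j ∈ Finset.range N, ‖D j‖ ^ 2 := Finset.sum_nonneg fun _ _ => by positivity
    rw [split, split, a1, b1, Finset.sum_range_succ, pow_succ (2 : ℝ) N]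
    have q4 : ∀ x : ℝ, x ^ 4 = (x ^ 2) ^ 2 := fun x => by ring
    rw [q4 ‖z - D N‖] at a2
    rw [q4 ‖z + D N‖] at b2
    generalize ‖z - D N‖ ^ 2 = P at *
    generalize ‖z + D N‖ ^ 2 = Q at *
    generalize ∑ j ∈ Finset.range N, ‖D j‖ ^ 2 = σ at *
    generalize ‖z‖ = x at *
    generalize ‖D N‖ = y at *
    have hp : (0 : ℝ) < 2 ^ N := by positivity
    refine ⟨by linear_combination (2 ^ N) * par, (add_le_add a2 b2).trans ?_⟩
    rw [← mul_add, mul_assoc ((2 : ℝ) ^ N) 2]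
    refine mul_le_mul_of_nonneg_left ?_ hp.le
    have hQ : Q = 2 * (x ^ 2 + y ^ 2) - P := by linarith
    subst hQ
    nlinarith [mul_nonneg (sub_nonneg.2 u1) (sub_nonneg.2 u2), sq_nonneg (y ^ 2)]

/-- a Khintchine inequality -/
theorem khin (D : ℕ → ℂ) (N : ℕ) : √(∑ j ∈ Finset.range N, ‖D j‖ ^ 2)
    ≤ 2 / 2 ^ N * ∑ S ∈ (Finset.range N).powerset, ‖XS D N S‖ := by
  obtain ⟨a1, a2⟩ := moments D N 0
  have hs : 0 ≤ ∑ j ∈ Finset.range N, ‖D j‖ ^ 2 := Finset.sum_nonneg fun _ _ => by positivity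
  have hσ := Real.sq_sqrt hs
  have h0 := Real.sqrt_nonneg (∑ j ∈ Finset.range N, ‖D j‖ ^ 2)
  rw [← hσ] at a1 a2
  generalize √(∑ j ∈ Finset.range N, ‖D j‖ ^ 2) = σ at *
  simp only [zero_add, norm_zero] at a1 a2
  have hE : 0 ≤ ∑ S ∈ (Finset.range N).powerset, ‖XS D N S‖ :=
    Finset.sum_nonneg fun _ _ => norm_nonneg _
  have hp : (0 : ℝ) < 2 ^ N := by positivity
  rcases h0.eq_or_lt with h | h
  · rw [← h]
    positivity
  have pt : ∀ S ∈ (Finset.range N).powerset, 12 * σ ^ 2 * ‖XS D N S‖ ^ 2 - ‖XS D N S‖ ^ 4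
      ≤ 16 * σ ^ 3 * ‖XS D N S‖ := fun S _ => by
    have u := norm_nonneg (XS D N S)
    generalize ‖XS D N S‖ = t at *
    nlinarith [mul_nonneg (mul_nonneg u (sq_nonneg (t - 2 * σ))) (show 0 ≤ t + 4 * σ by positivity)]
  have sm := Finset.sum_le_sum pt
  rw [Finset.sum_sub_distrib, ← Finset.mul_sum, ← Finset.mul_sum, a1] at sm
  generalize ∑ S ∈ (Finset.range N).powerset, ‖XS D N S‖ = E at *
  generalize ∑ S ∈ (Finset.range N).powerset, ‖XS D N S‖ ^ 4 = F at *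
  rw [div_mul_eq_mul_div, le_div_iff₀ hp]
  have h3 : 0 < σ ^ 3 := by positivity
  have key : σ ^ 3 * (9 * (σ * 2 ^ N)) ≤ σ ^ 3 * (16 * E) := by nlinarith
  have := le_of_mul_le_mul_left key h3
  linarith

/-- from signed sums to the square function -/
theorem sqfun {D : ℕ → ℝ → ℂ} (hD : ∀ j, Measurable (D j)) (N : ℕ) {r M : ℝ≥0∞} (hr : 1 ≤ r)
    (H : ∀ S : Finset ℕ, eLpNorm (fun x => ∑ j ∈ Finset.range N, sg S j * D j x) r volume ≤ M) :
    eLpNorm (fun x => √(∑ j ∈ Finset.range N, ‖D j x‖ ^ 2)) r volume ≤ 2 * M := by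
  set G : Finset ℕ → ℝ → ℝ := fun S x => ‖∑ j ∈ Finset.range N, sg S j * D j x‖ with hG
  have hm : ∀ S, AEStronglyMeasurable (G S) volume := fun S =>
    (Finset.measurable_sum _ fun j _ => (hD j).const_mul _).norm.aestronglyMeasurable
  have h1 : eLpNorm (fun x => √(∑ j ∈ Finset.range N, ‖D j x‖ ^ 2)) r volume
      ≤ ENNReal.ofReal (2 / 2 ^ N) *
        eLpNorm (∑ S ∈ (Finset.range N).powerset, G S) r volume := by
    refine eLpNorm_le_mul_eLpNorm_of_ae_le_mul (ae_of_all _ fun x => ?_) r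
    rw [Real.norm_of_nonneg (Real.sqrt_nonneg _), Finset.sum_apply,
      Real.norm_of_nonneg (Finset.sum_nonneg fun _ _ => norm_nonneg _)]
    exact khin (fun j => D j x) N
  have h2 : eLpNorm (∑ S ∈ (Finset.range N).powerset, G S) r volume ≤ 2 ^ N * M := by
    refine (eLpNorm_sum_le (fun S _ => hm S) hr).trans ?_
    refine (Finset.sum_le_card_nsmul _ _ M fun S _ => ?_).trans (le_of_eq ?_)
    · rw [hG]
      simp only
      rw [eLpNorm_norm]
      exact H S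
    · rw [Finset.card_powerset, Finset.card_range, nsmul_eq_mul]
      push_cast
      rfl
  refine h1.trans ((mul_le_mul_right h2 _).trans (le_of_eq ?_))
  rw [← mul_assoc]
  congr 1
  rw [ENNReal.ofReal_div_of_pos (by positivity), ENNReal.ofReal_pow zero_le_two,
    ENNReal.ofReal_ofNat, ENNReal.div_mul_cancel (by simp) (by simp)]

/-- from the square function to the sum of the squares of the norms -/
theorem sqsum {D : ℕ → ℝ → ℂ} (hD : ∀ j, Measurable (D j)) (N : ℕ) {r : ℝ≥0∞} (hr : 1 ≤ r)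
    (hr2 : r < 2) : ∑ j ∈ Finset.range N, eLpNorm (D j) r volume ^ 2
      ≤ eLpNorm (fun x => √(∑ j ∈ Finset.range N, ‖D j x‖ ^ 2)) r volume ^ 2 := by
  have r0 : r ≠ 0 := (zero_lt_one.trans_le hr).ne'
  have rt : r ≠ ∞ := (hr2.trans (by simp)).ne
  have p0 : 0 < r.toReal := ENNReal.toReal_pos r0 rt
  have p2 : r.toReal < 2 := by
    have := (ENNReal.toReal_lt_toReal rt (by simp : (2 : ℝ≥0∞) ≠ ∞)).2 hr2
    simpa using this
  set s := eLpNorm (fun x => √(∑ j ∈ Finset.range N, ‖D j x‖ ^ 2)) r volume with hs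
  by_cases st : s = ∞
  · rw [st]
    simp
  have nle : ∀ j ∈ Finset.range N, eLpNorm (D j) r volume ≤ s := fun j hj =>
    eLpNorm_mono_real fun x => Real.le_sqrt_of_sq_le
      (Finset.single_le_sum (f := fun j => ‖D j x‖ ^ 2) (fun _ _ => by positivity) hj)
  have pw : ∀ {E : Type} [NormedAddCommGroup E] (F : ℝ → E),
      eLpNorm F r volume ^ r.toReal = ∫⁻ x, ‖F x‖ₑ ^ r.toReal := by
    intro E _ F
    rw [eLpNorm_eq_lintegral_rpow_enorm_toReal r0 rt, ← ENNReal.rpow_mul, one_div,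
      inv_mul_cancel₀ p0.ne', ENNReal.rpow_one]
  have hsp : s ^ r.toReal = ∫⁻ x, ‖√(∑ j ∈ Finset.range N, ‖D j x‖ ^ 2)‖ₑ ^ r.toReal := pw _
  have hnp := fun j => pw (D j)
  generalize r.toReal = ρ at *
  set n : ℕ → ℝ≥0∞ := fun j => eLpNorm (D j) r volume with hn
  set M := ∑ j ∈ Finset.range N, n j ^ 2 with hM
  show M ≤ s ^ 2
  have Mt : M ≠ ∞ := ENNReal.sum_ne_top.2 fun j hj =>
    ENNReal.pow_ne_top (ne_top_of_le_ne_top st (nle j hj))
  by_cases M0 : M = 0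
  · rw [M0]
    exact zero_le
  have q0 : 0 < 2 - ρ := by linarith
  have hc : (2 / (2 - ρ)).HolderConjugate (2 / ρ) := by
    refine ⟨?_, by positivity, by positivity⟩
    field_simp
    ring
  have pt : ∀ x, ∑ j ∈ Finset.range N, n j ^ (2 - ρ) * ‖D j x‖ₑ ^ ρ
      ≤ M ^ ((2 - ρ) / 2) * ‖√(∑ j ∈ Finset.range N, ‖D j x‖ ^ 2)‖ₑ ^ ρ := by
    intro x
    refine (ENNReal.inner_le_Lp_mul_Lq _ _ _ hc).trans (le_of_eq ?_)
    have e1 : ∀ j, (n j ^ (2 - ρ)) ^ (2 / (2 - ρ)) = n j ^ 2 := fun j => by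
      rw [← ENNReal.rpow_mul, mul_div_cancel₀ _ q0.ne', ENNReal.rpow_two]
    have e2 : ∀ j, (‖D j x‖ₑ ^ ρ) ^ (2 / ρ) = ‖D j x‖ₑ ^ 2 := fun j => by
      rw [← ENNReal.rpow_mul, mul_div_cancel₀ _ p0.ne', ENNReal.rpow_two]
    have hs0 : 0 ≤ ∑ j ∈ Finset.range N, ‖D j x‖ ^ 2 := Finset.sum_nonneg fun _ _ => by positivity
    have e3 : ∑ j ∈ Finset.range N, ‖D j x‖ₑ ^ 2
        = ‖√(∑ j ∈ Finset.range N, ‖D j x‖ ^ 2)‖ₑ ^ (2 : ℝ) := by
      rw [ENNReal.rpow_two, Real.enorm_eq_ofReal (Real.sqrt_nonneg _),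
        ← ENNReal.ofReal_pow (Real.sqrt_nonneg _), Real.sq_sqrt hs0,
        ENNReal.ofReal_sum_of_nonneg fun _ _ => by positivity]
      refine Finset.sum_congr rfl fun j _ => ?_
      rw [ENNReal.ofReal_pow (norm_nonneg _), ofReal_norm]
    simp only [e1, e2]
    rw [e3, ← ENNReal.rpow_mul, one_div_div, one_div_div, mul_div_cancel₀ _ two_ne_zero]
  have key : M ≤ M ^ ((2 - ρ) / 2) * s ^ ρ := by
    have mm : ∀ j, Measurable fun x => ‖D j x‖ₑ ^ ρ := fun j => (hD j).enorm.pow_const _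
    calc M = ∑ j ∈ Finset.range N, ∫⁻ x, n j ^ (2 - ρ) * ‖D j x‖ₑ ^ ρ := by
          refine Finset.sum_congr rfl fun j _ => ?_
          rw [lintegral_const_mul _ (mm j), ← hnp j, ← ENNReal.rpow_add_of_nonneg _ _ q0.le p0.le,
            sub_add_cancel, ENNReal.rpow_two]
      _ = ∫⁻ x, ∑ j ∈ Finset.range N, n j ^ (2 - ρ) * ‖D j x‖ₑ ^ ρ :=
          (lintegral_finsetSum _ fun j _ => (mm j).const_mul _).symm
      _ ≤ ∫⁻ x, M ^ ((2 - ρ) / 2) * ‖√(∑ j ∈ Finset.range N, ‖D j x‖ ^ 2)‖ₑ ^ ρ :=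
          lintegral_mono pt
      _ = M ^ ((2 - ρ) / 2) * s ^ ρ := by
          rw [lintegral_const_mul' _ _ (ENNReal.rpow_ne_top_of_nonneg (by positivity) Mt), hsp]
  have e : M = M ^ ((2 - ρ) / 2) * M ^ (ρ / 2) := by
    rw [← ENNReal.rpow_add_of_nonneg _ _ (by positivity) (by positivity),
      show (2 - ρ) / 2 + ρ / 2 = 1 by ring, ENNReal.rpow_one]
  have k2 : M ^ (ρ / 2) ≤ s ^ ρ := by
    refine (ENNReal.mul_le_mul_iff_right (a := M ^ ((2 - ρ) / 2)) ?_ ?_).1 (e ▸ key)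
    · exact (ENNReal.rpow_pos (pos_iff_ne_zero.2 M0) Mt).ne'
    · exact ENNReal.rpow_ne_top_of_nonneg (by positivity) Mt
  have k3 := ENNReal.rpow_le_rpow k2 (show 0 ≤ 2 / ρ by positivity)
  rw [← ENNReal.rpow_mul, ← ENNReal.rpow_mul, show ρ / 2 * (2 / ρ) = 1 by field_simp,
    mul_div_cancel₀ _ p0.ne', ENNReal.rpow_one, ENNReal.rpow_two] at k3
  exact k3

theorem TK_int {K : ℝ → ℂ} (hK : Measurable K) {B : ℝ} (hB : ∀ t, ‖K t‖ ≤ B) {f₁ f₂ f₃ : ℝ → ℂ}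
    (h₁ : Nice f₁) (h₂ : Nice f₂) (h₃ : Nice f₃) (x : ℝ) :
    Integrable fun t => f₁ (x - t) * f₂ (x - 2 * t) * f₃ (x - 3 * t) * K t := by
  obtain ⟨B₂, hB₂⟩ := h₂.bdd
  obtain ⟨B₃, hB₃⟩ := h₃.bdd
  have m2 := h₂.meas
  have m3 := h₃.meas
  have n2 : Measurable fun t => f₂ (x - 2 * t) := by fun_prop
  have n3 : Measurable fun t => f₃ (x - 3 * t) := by fun_prop
  exact (((h₁.int.comp_sub_left x).mul_bdd (c := B₂) n2.aestronglyMeasurable
    (ae_of_all _ fun _ => hB₂ _)).mul_bdd (c := B₃) n3.aestronglyMeasurable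
    (ae_of_all _ fun _ => hB₃ _)).mul_bdd (c := B) hK.aestronglyMeasurable (ae_of_all _ hB)

theorem dil_cont {k : ℝ → ℝ} (hk : Continuous k) (a : ℝ) : Continuous (dil k a) := by
  unfold dil
  fun_prop

theorem gg_bd (c₁ c₂ : ℝ) : ∃ B, ∀ s, ‖gg c₁ c₂ s‖ ≤ B := by
  refine (gg_cont c₁ c₂).bounded_above_of_compact_support
    (HasCompactSupport.intro (isCompact_Icc (a := -3) (b := 3)) fun u hu => gg_zero c₁ c₂ ?_)
  rw [mem_Icc, not_and_or, not_le, not_le] at hu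
  exact le_abs'.2 (hu.imp le_of_lt le_of_lt)

theorem incr_sum (c₁ c₂ : ℝ) {a : ℕ → ℝ} (h0 : 0 < a 0) (hm : Monotone a) (N : ℕ) (c : ℕ → ℂ)
    {f₁ f₂ f₃ : ℝ → ℂ} (h₁ : Nice f₁) (h₂ : Nice f₂) (h₃ : Nice f₃) (x : ℝ) :
    ∑ j ∈ Finset.range N, c j * incr (av (gg c₁ c₂)) a f₁ f₂ f₃ j x
      = TK (KS (gg c₁ c₂) a N c) f₁ f₂ f₃ x := by
  obtain ⟨B, hB⟩ := gg_bd c₁ c₂
  have ap := sc_pos h0 hm
  have i : ∀ j, Integrable fun t => f₁ (x - t) * f₂ (x - 2 * t) * f₃ (x - 3 * t) *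
      dil (av (gg c₁ c₂)) (a j) t := fun j =>
    TK_int (dil_cont (av_cont (gg_cont c₁ c₂)) _).measurable (B := B / a j) (fun t => by
      unfold dil
      rw [Complex.norm_real, norm_div, Real.norm_of_nonneg (ap j).le]
      exact div_le_div_of_nonneg_right (av_bd hB _) (ap j).le) h₁ h₂ h₃ x
  unfold incr TK KS
  simp only [← integral_sub (i _) (i _), ← integral_const_mul]
  refine (integral_finsetSum _ fun j _ => ((i j).sub (i (j + 1))).const_mul (c j)).symm.trans ?_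
  congr 1
  funext t
  rw [Finset.mul_sum]
  refine Finset.sum_congr rfl fun j _ => ?_
  rw [← dil_sub (gg_cont c₁ c₂) (ap j) (ap (j + 1)), Pi.sub_apply]
  ring

theorem nice_s (f : 𝓢(ℝ, ℂ)) : Nice f where
  meas := f.continuous.measurable
  bdd := by
    obtain ⟨C, hC⟩ := f.decay 0 0
    exact ⟨C, fun x => by simpa using hC.2 x⟩
  int := f.integrable

theorem uncond {B : ℝ} {p₁ p₂ p₃ r : ℝ≥0∞} (hT : ∀ n, Node n B (dd p₁ p₂ p₃ r)) (hB : 0 ≤ B)
    (hd : ∀ i, 0 < dd p₁ p₂ p₃ r i) (hsum : r⁻¹ = p₁⁻¹ + p₂⁻¹ + p₃⁻¹) (hr : 1 ≤ r) (hr2 : r < 2)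
    (c₁ c₂ : ℝ) : Uncond (av (gg c₁ c₂)) p₁ p₂ p₃ r := by
  set A := ENNReal.ofReal (16 * ((|c₁| + |c₂|) * B)) with hA
  refine ⟨2 * A, ENNReal.mul_lt_top (by simp) ENNReal.ofReal_lt_top,
    fun f₁ f₂ f₃ a h0 hm N => ?_⟩
  have H : ∀ c : ℕ → ℂ, (∀ j, ‖c j‖ ≤ 1) →
      eLpNorm (fun x => ∑ j ∈ Finset.range N, c j * incr (av (gg c₁ c₂)) a f₁ f₂ f₃ j x) r volume
        ≤ A * eLpNorm f₁ p₁ volume * eLpNorm f₂ p₂ volume * eLpNorm f₃ p₃ volume := by
    intro c hc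
    simp only [incr_sum c₁ c₂ h0 hm N c (nice_s f₁) (nice_s f₂) (nice_s f₃)]
    exact op (KS_cont (gg_cont c₁ c₂) h0 hm N c).measurable
      (KS_int (gg_cont c₁ c₂) (fun _ => gg_zero c₁ c₂) h0 hm N c) (by positivity) hd hsum
      (KS_good hT hB hd (dd_sum hd hsum) c₁ c₂ h0 hm N hc) (nice_s f₁) (nice_s f₂) (nice_s f₃)
  have mk : ∀ t, Measurable (TK (dil (av (gg c₁ c₂)) t) f₁ f₂ f₃) := fun t =>
    TK_meas (dil_cont (av_cont (gg_cont c₁ c₂)) t).measurable (nice_s f₁).meas (nice_s f₂).meas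
      (nice_s f₃).meas
  have mi : ∀ j, Measurable (incr (av (gg c₁ c₂)) a f₁ f₂ f₃ j) := fun j =>
    (mk (a j)).sub (mk (a (j + 1)))
  have h2 := sqfun mi N hr fun S => H (sg S) (sg_norm S)
  rw [← mul_assoc, ← mul_assoc, ← mul_assoc] at h2
  refine ⟨fun c hc => (H c hc).trans ?_, h2, (sqsum mi N hr hr2).trans (by gcongr)⟩
  gcongr
  rw [two_mul]
  exact le_self_add

theorem kernels {B : ℝ} {p₁ p₂ p₃ r : ℝ≥0∞} (hT : ∀ n, Node n B (dd p₁ p₂ p₃ r)) (hB : 0 ≤ B)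
    (hd : ∀ i, 0 < dd p₁ p₂ p₃ r i) (hsum : r⁻¹ = p₁⁻¹ + p₂⁻¹ + p₃⁻¹) {γ : ℝ} (hγ : γ ∉ ZZ)
    {α β : ℂ} (h0 : γ = 0 → α + β = 0) : HomBounded γ α β p₁ p₂ p₃ r := by
  obtain ⟨A, hA, H⟩ := hom_good hT hB hd (dd_sum hd hsum) hγ h0
  exact ⟨ENNReal.ofReal (16 * A), ENNReal.ofReal_lt_top, fun f₁ f₂ f₃ ε R hε hR =>
    op (homK_meas γ α β hε R) (homK_int γ α β hε hR.le) hA hd hsum (H ε R hε hR.le)
      (nice_s f₁) (nice_s f₂) (nice_s f₃)⟩

theorem JJ_one {ε : ℝ} (h0 : 0 < ε) : JJ 0 ε 1 (fun _ => 1) = ((-Real.log ε : ℝ) : ℂ) := by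
  have e : JJ 0 ε 1 (fun _ => 1) = ∫ t in ε..1, ((t⁻¹ : ℝ) : ℂ) := by
    unfold JJ cp
    congr 1
    funext t
    simp [Complex.cpow_neg_one]
  rw [e, intervalIntegral.integral_ofReal, integral_inv_of_pos h0 one_pos, one_div, Real.log_inv]

theorem bump : ∃ f : 𝓢(ℝ, ℂ), ∀ y : ℝ, |y| ≤ 4 → f y = 1 := by
  let b : ContDiffBump (0 : ℝ) := ⟨4, 5, by norm_num, by norm_num⟩
  have hs : HasCompactSupport fun x => ((b x : ℝ) : ℂ) :=
    b.hasCompactSupport.comp_left (g := fun y : ℝ => (y : ℂ)) Complex.ofReal_zero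
  refine ⟨hs.toSchwartzMap (Complex.ofRealCLM.contDiff.comp b.contDiff), fun y hy => ?_⟩
  show ((b y : ℝ) : ℂ) = 1
  rw [b.one_of_mem_closedBall (by rwa [mem_closedBall_zero_iff, Real.norm_eq_abs]),
    Complex.ofReal_one]

/-- without cancellation there is no bound -/
theorem unb {α β : ℂ} {p₁ p₂ p₃ r : ℝ≥0∞} (hr : r ≠ 0) (h : HomBounded 0 α β p₁ p₂ p₃ r) :
    α + β = 0 := by
  by_contra hne
  obtain ⟨C, hC, H⟩ := h
  obtain ⟨f, f1⟩ := bump
  have Mt : C * eLpNorm f p₁ volume * eLpNorm f p₂ volume * eLpNorm f p₃ volume ≠ ∞ :=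
    ENNReal.mul_ne_top (ENNReal.mul_ne_top (ENNReal.mul_ne_top hC.ne
      (f.eLpNorm_lt_top p₁ volume).ne) (f.eLpNorm_lt_top p₂ volume).ne)
      (f.eLpNorm_lt_top p₃ volume).ne
  have H' := H f f f
  generalize C * eLpNorm f p₁ volume * eLpNorm f p₂ volume * eLpNorm f p₃ volume = M at Mt H'
  have np : 0 < ‖α + β‖ := norm_pos_iff.2 hne
  obtain ⟨L, hL⟩ : ∃ L, L = M.toReal / ‖α + β‖ + 1 := ⟨_, rfl⟩
  have L0' : 0 < L := by rw [hL]; positivity
  have e0 : 0 < Real.exp (-L) := Real.exp_pos _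
  have e1 : Real.exp (-L) < 1 := Real.exp_lt_one_iff.2 (by linarith)
  have val : ∀ x ∈ Icc (0 : ℝ) 1, TK (homK 0 α β (Real.exp (-L)) 1) f f f x = (α + β) * L := by
    intro x hx
    have hp := homK_pair 0 α β e0 e1.le (w := fun _ => 1) continuous_const
    rw [JJ_one e0, Real.log_exp, neg_neg, ← add_mul] at hp
    rw [← hp]
    unfold TK
    congr 1
    funext t
    by_cases ht : |t| < 1
    · have := abs_lt.1 ht
      rw [f1 _ (abs_le.2 ⟨by linarith [hx.1], by linarith [hx.2]⟩),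
        f1 _ (abs_le.2 ⟨by linarith [hx.1], by linarith [hx.2]⟩),
        f1 _ (abs_le.2 ⟨by linarith [hx.1], by linarith [hx.2]⟩)]
      simp
    · unfold homK
      rw [if_neg fun h => ht h.2]
      simp
  have low : eLpNorm ((Icc (0 : ℝ) 1).indicator fun _ => (α + β) * L) r volume ≤ M := by
    refine le_trans (eLpNorm_mono fun x => ?_) (H' _ 1 e0 e1)
    by_cases hx : x ∈ Icc (0 : ℝ) 1
    · rw [indicator_of_mem hx, val x hx]
    · rw [indicator_of_notMem hx, norm_zero]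
      exact norm_nonneg _
  rw [eLpNorm_indicator_const' measurableSet_Icc (by simp) hr] at low
  simp only [Real.volume_Icc, sub_zero, ENNReal.ofReal_one, ENNReal.one_rpow, mul_one] at low
  have l2 := ENNReal.toReal_mono Mt low
  rw [toReal_enorm, norm_mul, Complex.norm_real, Real.norm_of_nonneg L0'.le, hL, mul_add,
    mul_div_cancel₀ _ np.ne'] at l2
  linarith

/-- the kernel with tail `μ / s` and mass `ν` -/
noncomputable def kk (μ ν : ℝ) : ℝ → ℝ :=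
  av (gg (ν / (2 * W0) - 24 * μ) (ν / (2 * W0) + 24 * μ))

theorem kk_spec (μ ν : ℝ) : Continuous (kk μ ν) ∧ (∀ s, 3 ≤ |s| → kk μ ν s = μ / s) ∧
    ∫ s in (-3 : ℝ)..3, kk μ ν s = ν := by
  refine ⟨av_cont (gg_cont _ _), fun s hs => ?_, ?_⟩
  · unfold kk
    rw [av_tail _ _ hs]
    ring
  · unfold kk
    rw [av_mass]
    have := W0_ne
    field_simp
    ring

end Vale.Agent.N141K
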